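import Vale.Agent.P049.RatTC

namespace Vale.Agent.P049

open Finset

open Vale.Agent.Common.TreeTM Vale.Agent.P337

theorem length_off (b : List Bool) (α β : ℕ) : (off b α β).length = b.length := by
  simp [off, idx]
theorem FF_off (b : List Bool) (α β : ℕ) : FF (off b α β) = rem (FF b) α β := by
  ext i
  simp only [FF, rem, length_off, mem_filter, mem_range, mem_erase]
  by_cases h : i < b.length
  · simp [off, idx, h, neq]; tauto
  · simp [h]
theorem mat_tab (b : List Bool) (Y : ℕ → ℕ → ℚ) {i j : ℕ} (hi : i < b.length) (hj : j < b.length) :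
    mat (tab b Y) i j = Y i j := by
  simp [mat, tab, idx, hi, hj]

variable {α : Type} [Enc α]

@[fun_prop] theorem tc_adjV (d : ℕ) {E : α → List (ℕ × ℕ)} {u v : α → ℕ} (hE : TC 0 E) (hu : TC 0 u)
    (hv : TC 0 v) : TC 0 fun a => adjV d (E a) (u a) (v a) := by unfold adjV; fun_prop
@[fun_prop] theorem tc_badB (d : ℕ) {E : α → List (ℕ × ℕ)} {u v : α → ℕ} (hE : TC 0 E) (hu : TC 0 u)
    (hv : TC 0 v) : TC 0 fun a => badB d (E a) (u a) (v a) := by unfold badB; fun_prop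
@[fun_prop] theorem tc_mat {L : α → List (List ℚ)} {i j : α → ℕ} (hL : TC 0 L) (hi : TC 0 i)
    (hj : TC 0 j) : TC 0 fun a => mat (L a) (i a) (j a) := by unfold mat; fun_prop
@[fun_prop] theorem tc_off {b : α → List Bool} {i j : α → ℕ} (hb : TC 0 b) (hi : TC 0 i)
    (hj : TC 0 j) : TC 0 fun a => off (b a) (i a) (j a) := by unfold off; fun_prop

section

variable {b : α → List Bool} {L L' : α → List (List ℚ)} {x y i j g Q : α → ℕ} {γ t t' c : α → ℚ}
  {E : α → List (ℕ × ℕ)}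

@[fun_prop] theorem tc_aS (σ : ℚ) (hb : TC 0 b) (hL : TC 0 L) (hx : TC 0 x) :
    TC 0 fun a => aS (FF (b a)) σ (mat (L a)) (x a) := by unfold aS; fun_prop
@[fun_prop] theorem tc_sS (σ : ℚ) (hb : TC 0 b) (hL : TC 0 L) (hx : TC 0 x) (hy : TC 0 y) :
    TC 0 fun a => sS (FF (b a)) σ (mat (L a)) (x a) (y a) := by unfold sS; fun_prop
@[fun_prop] theorem tc_dl (σ : ℚ) (hb : TC 0 b) (hL : TC 0 L) (hx : TC 0 x) (hy : TC 0 y) :
    TC 0 fun a => dl (FF (b a)) σ (mat (L a)) (x a) (y a) := by unfold dl; fun_prop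
@[fun_prop] theorem tc_mM (σ : ℚ) (hb : TC 0 b) (hL : TC 0 L) (hx : TC 0 x) (hy : TC 0 y)
    (hi : TC 0 i) (hj : TC 0 j) :
    TC 0 fun a => mM (FF (b a)) σ (mat (L a)) (x a) (y a) (i a) (j a) := by unfold mM; fun_prop
@[fun_prop] theorem tc_upd (σ : ℚ) (hb : TC 0 b) (hL : TC 0 L) (hx : TC 0 x) (hy : TC 0 y)
    (hi : TC 0 i) (hj : TC 0 j) :
    TC 0 fun a => upd (FF (b a)) σ (mat (L a)) (x a) (y a) (i a) (j a) := by
  unfold upd cen
  simp only [← FF_off]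
  fun_prop
@[fun_prop] theorem tc_nx (σ : ℚ) (hg : TC 0 g) (hb : TC 0 b) (hL : TC 0 L) (hx : TC 0 x)
    (hy : TC 0 y) (hi : TC 0 i) (hj : TC 0 j) :
    TC 0 fun a => nx (g a) (FF (b a)) σ (mat (L a)) (x a) (y a) (i a) (j a) := by
  have : TC 0 fun a => bif decide (i a ∈ FF (off (b a) (x a) (y a))) &&
      decide (j a ∈ FF (off (b a) (x a) (y a))) then
      (bif neq (i a) (j a) then -∑ l ∈ FF (off (b a) (x a) (y a)), (bif neq l (i a) then 0 else
        (⌊((g a ^ 200000 : ℕ) : ℚ) * upd (FF (b a)) σ (mat (L a)) (x a) (y a) (i a) l⌋ : ℚ) /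
          (g a ^ 200000 : ℕ))
      else (⌊((g a ^ 200000 : ℕ) : ℚ) * upd (FF (b a)) σ (mat (L a)) (x a) (y a) (i a) (j a)⌋ : ℚ) /
          (g a ^ 200000 : ℕ)) else 0 := by fun_prop
  refine this.of_eq fun a => ?_
  simp only [nx, rnd, FF_off, neq, Bool.cond_decide, ← Bool.decide_and]
@[fun_prop] theorem tc_tau1 (hb : TC 0 b) (hL : TC 0 L) :
    TC 0 fun a => tau1 (FF (b a)) (mat (L a)) := by unfold tau1; fun_prop
@[fun_prop] theorem tc_rho (hb : TC 0 b) (hL : TC 0 L) (hi : TC 0 i) :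
    TC 0 fun a => rho (FF (b a)) (mat (L a)) (i a) := by unfold rho; fun_prop
@[fun_prop] theorem tc_tau2 (hb : TC 0 b) (hL : TC 0 L) :
    TC 0 fun a => tau2 (FF (b a)) (mat (L a)) := by unfold tau2; fun_prop
@[fun_prop] theorem tc_zz (hb : TC 0 b) (hL : TC 0 L) :
    TC 0 fun a => zz (FF (b a)) (mat (L a)) := by unfold zz; fun_prop
@[fun_prop] theorem tc_vS (hb : TC 0 b) (hL : TC 0 L) :
    TC 0 fun a => vS (FF (b a)) (mat (L a)) := by unfold vS; fun_prop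
@[fun_prop] theorem tc_dS (hb : TC 0 b) (hL : TC 0 L) :
    TC 0 fun a => dS (FF (b a)) (mat (L a)) := by unfold dS; fun_prop
@[fun_prop] theorem tc_nS (hb : TC 0 b) (hL : TC 0 L) (hL' : TC 0 L') :
    TC 0 fun a => nS (FF (b a)) (mat (L a)) (mat (L' a)) := by unfold nS; fun_prop
@[fun_prop] theorem tc_phi1 (hγ : TC 0 γ) (hb : TC 0 b) (hL : TC 0 L) (ht : TC 0 t) :
    TC 0 fun a => phi1 (γ a) (FF (b a)) (mat (L a)) (t a) := by unfold phi1 hh h2; fun_prop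
@[fun_prop] theorem tc_tHat (hQ : TC 0 Q) (hb : TC 0 b) (hL : TC 0 L) :
    TC 0 fun a => tHat (Q a) (FF (b a)) (mat (L a)) := by unfold tHat; fun_prop
@[fun_prop] theorem tc_phiH (hQ : TC 0 Q) (hγ : TC 0 γ) (hb : TC 0 b) (hL : TC 0 L) (hL' : TC 0 L')
    (hc : TC 0 c) : TC 0 fun a => phiH (Q a) (γ a) (FF (b a)) (mat (L a)) (mat (L' a)) (c a) := by
  unfold phiH phiT; fun_prop
@[fun_prop] theorem tc_bG (d : ℕ) (hγ : TC 0 γ) (hE : TC 0 E) (hb : TC 0 b) :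
    TC 0 fun a => bG (γ a) d (E a) (FF (b a)) := by unfold bG bh c1 c2; fun_prop
theorem tc_Good (d : ℕ) (hg : TC 0 g) (hb : TC 0 b) (hL : TC 0 L) (hL' : TC 0 L') (hE : TC 0 E) :
    TC 0 fun a => decide (1 ≤ ((FF (b a)).card : ℚ) * zz (FF (b a)) (mat (L a))) &&
      (decide (1 ≤ ((FF (b a)).card : ℚ) * zz (FF (b a)) (mat (L' a))) &&
      decide (((FF (b a)).card : ℚ) * phiH (g a ^ 200000) (g a : ℚ) (FF (b a)) (mat (L a))
        (mat (L' a)) (bG (g a : ℚ) d (E a) (FF (b a))) ≤ (g a : ℚ) ^ 120000)) := by fun_prop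

end

@[fun_prop] theorem tc_nxt {g : α → ℕ} {s : α → St} {e : α → ℕ × ℕ} (hg : TC 0 g) (hs : TC 0 s)
    (he : TC 0 e) : TC 0 fun a => nxt (g a) (s a) (e a) := by unfold nxt tab; fun_prop

theorem Good_congr {K : Type} [Field K] [LinearOrder K] [IsStrictOrderedRing K] [FloorRing K]
    {d g : ℕ} {F : Finset ℕ} {X X' Y Y' : ℕ → ℕ → K} {E : List (ℕ × ℕ)}
    (h : ∀ i ∈ F, ∀ j ∈ F, X i j = Y i j) (h' : ∀ i ∈ F, ∀ j ∈ F, X' i j = Y' i j) :
    Good d g F X X' E ↔ Good d g F Y Y' E := by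
  have key : ∀ {X Y : ℕ → ℕ → K}, (∀ i ∈ F, ∀ j ∈ F, X i j = Y i j) →
      tau1 F X = tau1 F Y ∧ tau2 F X = tau2 F Y ∧ vS F X = vS F Y ∧ dS F X = dS F Y := by
    intro X Y h
    have r : ∀ i ∈ F, rho F X i = rho F Y i := fun i hi => sum_congr rfl fun j hj => by rw [h i hi j hj]
    exact ⟨sum_congr rfl fun i hi => h i hi i hi, sum_congr rfl r,
      sum_congr rfl fun i hi => by rw [r i hi], sum_congr rfl fun i hi => by rw [h i hi i hi]⟩
  obtain ⟨a1, a2, a3, a4⟩ := key h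
  obtain ⟨b1, b2, b3, b4⟩ := key h'
  have c : nS F X X' = nS F Y Y' := sum_congr rfl fun i hi => sum_congr rfl fun j hj => by
    rw [sum_congr rfl fun l hl => by rw [h i hi l hl, h' l hl j hj]]
  simp only [Good, phiH, phiT, phi1, tHat, zz, a1, a2, a3, a4, b1, b2, b3, b4, c]

theorem mem_FF_lt {b : List Bool} {i : ℕ} (h : i ∈ FF b) : i < b.length :=
  mem_range.1 (mem_filter.1 h).1

theorem mem_rem_lt {b : List Bool} {x y i : ℕ} (h : i ∈ rem (FF b) x y) : i < b.length :=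
  mem_FF_lt (mem_of_mem_erase (mem_of_mem_erase h))

@[fun_prop] theorem tc_tst (d : ℕ) {g : α → ℕ} {s : α → St} {e : α → ℕ × ℕ} (hg : TC 0 g)
    (hs : TC 0 s) (he : TC 0 e) : TC 0 fun a => tst d (g a) (s a) (e a) := by
  have hn := tc_nxt hg hs he
  have hG := tc_Good d hg (TC.fst hn) (TC.fst (TC.snd hn)) (TC.fst (TC.snd (TC.snd hn)))
    (TC.snd (TC.snd (TC.snd hn)))
  have h1 : TC 0 fun a => decide ((e a).1 ∈ FF (s a).1) && (decide ((e a).2 ∈ FF (s a).1) &&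
      (!badB d (s a).2.2.2 (e a).1 (e a).2 &&
      (decide (0 < dl (FF (s a).1) 1 (mat (s a).2.1) (e a).1 (e a).2) &&
      decide (0 < dl (FF (s a).1) (-1) (mat (s a).2.2.1) (e a).1 (e a).2)))) := by fun_prop
  refine (TC.and h1 hG).of_eq fun a => ?_
  have k := Good_congr (d := d) (g := g a) (E := e a :: (s a).2.2.2)
    (F := rem (FF (s a).1) (e a).1 (e a).2)
    (fun i hi j hj => mat_tab (s a).1 (nx (g a) (FF (s a).1) 1 (mat (s a).2.1) (e a).1 (e a).2)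
      (mem_rem_lt hi) (mem_rem_lt hj))
    (fun i hi j hj => mat_tab (s a).1 (nx (g a) (FF (s a).1) (-1) (mat (s a).2.2.1) (e a).1 (e a).2)
      (mem_rem_lt hi) (mem_rem_lt hj))
  rw [Bool.eq_iff_iff, tst, decide_eq_true_eq]
  simp only [Test, nxt, FF_off, Bool.and_eq_true, decide_eq_true_eq, Bool.not_eq_true', and_assoc]
  exact and_congr_right' (and_congr_right' (and_congr_right' (and_congr_right'
    (and_congr_right' k.symm))))
@[fun_prop] theorem tc_stp (d : ℕ) {g : α → ℕ} {s : α → St} (hg : TC 0 g) (hs : TC 0 s) :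
    TC 0 fun a => stp d (g a) (s a) := by unfold stp cands; fun_prop

end Vale.Agent.P049
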