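import Vale.Agent.P049.AlgA

set_option maxRecDepth 100000

namespace Vale.Agent.P049

open Finset

open Vale.Agent.Common.TreeTM Vale.Agent.P337

namespace AlgB

theorem sz_idx_map {β γ : Type} [Enc γ] (b : List β) (f : ℕ → γ) {B : ℕ}
    (h : ∀ i < b.length, sz (f i) ≤ B) : sz ((idx b).map f) ≤ b.length * (B + 1) + 1 := by
  have := sz_list_le (l := (idx b).map f) (b := B) fun x hx => by
    obtain ⟨i, hi, rfl⟩ := List.mem_map.1 hx
    exact h i (List.mem_range.1 hi)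
  simpa [idx] using this

theorem sz_tab (b : List Bool) (Y : ℕ → ℕ → ℚ) {B : ℕ} (h : ∀ i j, sz (Y i j) ≤ B) :
    sz (tab b Y) ≤ b.length * (b.length * (B + 1) + 1 + 1) + 1 :=
  sz_idx_map b _ fun i _ => sz_idx_map b _ fun j _ => h i j

theorem den_le {Q : ℕ} (z : ℤ) : ((z : ℚ) / Q).den ≤ Q + 1 := by
  rcases Nat.eq_zero_or_pos Q with rfl | hQ
  · simp
  · rw [← Rat.mkRat_eq_div, Rat.den_mkRat, if_neg hQ.ne']
    exact (Nat.div_le_self _ _).trans (Nat.le_succ _)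

theorem rnd_den (Q : ℕ) (F : Finset ℕ) (Y : ℕ → ℕ → ℚ) (i j : ℕ) : (rnd Q F Y i j).den ≤ Q + 1 := by
  unfold rnd
  split_ifs with h1 h2
  · have : -∑ l ∈ F, (if l = i then 0 else (⌊Q * Y i l⌋ : ℚ) / Q) =
        ((-∑ l ∈ F, (if l = i then 0 else ⌊Q * Y i l⌋) : ℤ) : ℚ) / Q := by
      push_cast
      rw [neg_div, sum_div]
      congr 1
      exact sum_congr rfl fun l _ => by split_ifs <;> simp
    rw [this]; exact den_le _
  · exact den_le _
  · simp

theorem rnd_abs {Q N : ℕ} {F : Finset ℕ} {Y : ℕ → ℕ → ℚ} (hF : F.card ≤ N)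
    (h : 1 ≤ F.card * zz F (rnd Q F Y)) (i j : ℕ) : |rnd Q F Y i j| ≤ (N + 1 : ℕ) := by
  by_cases k : i ∈ F ∧ j ∈ F
  · have h0 : 0 < zz F (rnd Q F Y) := by
      by_contra h0
      have := mul_nonpos_of_nonneg_of_nonpos (Nat.cast_nonneg (α := ℚ) F.card) (not_lt.1 h0)
      linarith
    have h1 : rnd Q F Y i j ^ 2 ≤ rho F (rnd Q F Y) i :=
      single_le_sum (f := fun j => rnd Q F Y i j ^ 2) (fun _ _ => sq_nonneg _) k.2
    have h2 : rho F (rnd Q F Y) i ≤ tau2 F (rnd Q F Y) :=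
      single_le_sum (f := fun i => rho F (rnd Q F Y) i)
        (fun _ _ => sum_nonneg fun _ _ => sq_nonneg _) k.1
    have h3 : (F.card : ℚ) ≤ N := by exact_mod_cast hF
    unfold zz at h0
    rw [← sq_abs] at h1
    push_cast
    nlinarith [sq_nonneg (|rnd Q F Y i j| - 1), abs_nonneg (rnd Q F Y i j)]
  · unfold rnd; rw [if_neg k, abs_zero]; positivity

theorem card_FF (b : List Bool) : (FF b).card ≤ b.length :=
  (card_filter_le _ _).trans (card_range _).le

theorem sz_entry {r : ℚ} {A B : ℕ} (h1 : |r| ≤ A) (h2 : r.den ≤ B) :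
    sz r ≤ 12 * sz ((A + 1) * B) + 5 := by
  have := lt_two_pow_sz ((A + 1) * B)
  refine sz_rat_le (((num_natAbs_le h1).trans ?_).trans_lt this) ((h2.trans ?_).trans_lt this)
  · exact Nat.mul_le_mul (Nat.le_succ _) h2
  · exact Nat.le_mul_of_pos_left _ (Nat.succ_pos _)

theorem mem_cands {d g : ℕ} {s : St} {e : ℕ × ℕ} (h : e ∈ cands d g s) :
    e.1 < s.1.length ∧ e.2 < s.1.length ∧ tst d g s e = true := by
  obtain ⟨h1, h2⟩ := List.mem_filter.1 h
  obtain ⟨x, hx, h3⟩ := List.mem_flatMap.1 h1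
  obtain ⟨y, hy, rfl⟩ := List.mem_map.1 h3
  exact ⟨List.mem_range.1 hx, List.mem_range.1 hy, h2⟩

theorem stp_cases (d g : ℕ) (s : St) : stp d g s = s ∨ ∃ e ∈ cands d g s, stp d g s = nxt g s e := by
  unfold stp
  cases hc : cands d g s with
  | nil => left; simp [isCons]
  | cons e l =>
    cases nlt (g ^ 3995) (FF s.1).card
    · left; rfl
    · right; exact ⟨e, by simp, rfl⟩

def bnd (N g : ℕ) : ℕ := N * (N * (12 * sz ((N + 1 + 1) * (g ^ 200000 + 1)) + 5 + 1) + 1 + 1) + 1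

theorem step_inv {d g N S k : ℕ} {s : St} (hS : bnd N g ≤ S)
    (h : s.1.length = N ∧ sz s.2.1 ≤ S ∧ sz s.2.2.1 ≤ S ∧ sz s.2.2.2 ≤ k * (8 * N + 4) + 1) :
    (stp d g s).1.length = N ∧ sz (stp d g s).2.1 ≤ S ∧ sz (stp d g s).2.2.1 ≤ S ∧
      sz (stp d g s).2.2.2 ≤ (k + 1) * (8 * N + 4) + 1 := by
  obtain ⟨h1, h2, h3, h4⟩ := h
  rcases stp_cases d g s with e | ⟨e, he, e1⟩
  · rw [e, Nat.succ_mul]; exact ⟨h1, h2, h3, by omega⟩
  · obtain ⟨a1, a2, a3⟩ := mem_cands he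
    obtain ⟨-, -, -, -, -, b1, b2, -⟩ := of_decide_eq_true a3
    have hc : (rem (FF s.1) e.1 e.2).card ≤ N :=
      (card_erase_le.trans card_erase_le).trans (h1 ▸ card_FF s.1)
    rw [e1]
    refine ⟨(length_off _ _ _).trans h1, ?_, ?_, ?_⟩
    · refine le_trans ?_ hS
      rw [bnd, ← h1] at *
      exact sz_tab _ _ fun i j => sz_entry (rnd_abs hc b1 i j) (rnd_den _ _ _ i j)
    · refine le_trans ?_ hS
      rw [bnd, ← h1] at *
      exact sz_tab _ _ fun i j => sz_entry (rnd_abs hc b2 i j) (rnd_den _ _ _ i j)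
    · have c1 := sz_nat_self e.1
      have c2 := sz_nat_self e.2
      change sz (e :: s.2.2.2) ≤ _
      rw [sz_lcons, sz_prod, Nat.succ_mul]; omega

@[fun_prop] theorem tc_gOf {α : Type} [Enc α] {w : α → List Bool} (hw : TC 0 w) :
    TC 0 fun a => gOf (w a) := by
  have : ∀ k : ℕ, TC 0 fun a => (idx (w a)).countP fun j => !nlt (w a).length ((j + 1) ^ k) := by
    intro k; fun_prop
  exact this 12000
@[fun_prop] theorem tc_b0 (d : ℕ) {α : Type} [Enc α] {w : α → List Bool} (hw : TC 0 w) :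
    TC 0 fun a => b0 d (w a) := by unfold b0; fun_prop
@[fun_prop] theorem tc_cc (d : ℕ) {α : Type} [Enc α] {g : α → ℕ} (hg : TC 0 g) :
    TC 0 fun a => cc ℚ d (g a) := by unfold cc; fun_prop
@[fun_prop] theorem tc_Y0 (d : ℕ) {α : Type} [Enc α] {n g i j : α → ℕ} (hn : TC 0 n) (hg : TC 0 g)
    (hi : TC 0 i) (hj : TC 0 j) : TC 0 fun a => Y0 ℚ (n a) d (g a) (i a) (j a) := by
  unfold Y0 k0; fun_prop
theorem tc_st0 (d : ℕ) : TC 0 (st0 d) := by unfold st0 tab; fun_prop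

theorem tc_run (d : ℕ) : TC 0 (run d) := by
  have h0 := tc_st0 d
  have hb : TC 0 fun w => b0 d w := by fun_prop
  have hN : Bd 0 fun w => (b0 d w).length := hb.bd.mono fun a => length_le_sz _
  have hq : TC 0 fun w => ((b0 d w).length + 1 + 1) * (gOf w ^ 200000 + 1) := by fun_prop
  have c := fun k => Bd.const (α := List Bool) 0 k
  have hB : Bd 0 fun w => bnd (b0 d w).length (gOf w) :=
    (hN.mul (((hN.mul ((((c 12).mul hq.bd).add (c 5)).add (c 1))).add (c 1)).add (c 1))).add (c 1)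
  refine TC.foldl_inv (e := 0) (f := fun w s (_ : Bool) => stp d (gOf w) s) (by fun_prop) h0 hb
    (S := fun w => 4 * (b0 d w).length + 2 * (bnd (b0 d w).length (gOf w) + sz (st0 d w)) +
      (b0 d w).length * (8 * (b0 d w).length + 4) + 5)
    (((((c 4).mul hN).add ((c 2).mul (hB.add h0.bd))).add
      (hN.mul (((c 8).mul hN).add (c 4)))).add (c 5))
    (fun w k s => s.1.length = (b0 d w).length ∧
      sz s.2.1 ≤ bnd (b0 d w).length (gOf w) + sz (st0 d w) ∧
      sz s.2.2.1 ≤ bnd (b0 d w).length (gOf w) + sz (st0 d w) ∧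
      sz s.2.2.2 ≤ k * (8 * (b0 d w).length + 4) + 1) (fun w => ?_)
    (fun w k s _ _ h => step_inv (Nat.le_add_right _ _) h) fun w k s hk ⟨h1, h2, h3, h4⟩ => ?_
  · have e1 := sz_prod (st0 d w)
    have e2 := sz_prod (st0 d w).2
    have e3 := sz_prod (st0 d w).2.2
    exact ⟨rfl, by omega, by omega, by rw [zero_mul]; exact le_rfl⟩
  · have e1 := sz_prod s
    have e2 := sz_prod s.2
    have e3 := sz_prod s.2.2
    have e4 := sz_bools s.1
    have e5 := Nat.mul_le_mul_right (8 * (b0 d w).length + 4) hk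
    omega

end AlgB

theorem tc_alg (d : ℕ) : TC 0 (alg d) := by
  have h := AlgB.tc_run d
  have h2 : TC 0 fun w => edges (run d w) := by unfold edges prs; fun_prop
  have h3 : TC 0 fun p : List Bool × List (ℕ × ℕ) =>
      (idx p.1).flatMap fun u => (idx p.1).map fun v => adjV d p.2 u v := by fun_prop
  exact (TC.comp h3 (TC.pair TC.id h2)).of_eq fun _ => rfl

end Vale.Agent.P049
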