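import Vale.Agent.P049.Init
import Vale.Agent.P049.FactA

set_option maxRecDepth 100000

namespace Vale.Agent.P049

open Finset Init

namespace InitB

theorem rhos {c r x d : ℝ} (c0 : 0 < c) (h : c * r ≤ 1 - x) (hr : r ^ 2 = d - 1) (r0 : 0 ≤ r)
    (d3 : 3 ≤ d) (x0 : 0 < x) (x1 : x ≤ 1 / 100) (xr : x * r ≤ 1 / 100) :
    0 ≤ (c + 12 * x ^ 2) ^ 2 * d - 2 * (c + 12 * x ^ 2) * c ∧
      (c + 12 * x ^ 2) ^ 2 * d - 2 * (c + 12 * x ^ 2) * c + c ^ 2 ≤ 1 - x := by
  constructor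
  · have : 2 * c ≤ (c + 12 * x ^ 2) * d := by nlinarith [sq_nonneg x]
    nlinarith [mul_le_mul_of_nonneg_left this (show 0 ≤ c + 12 * x ^ 2 by positivity)]
  · have h1 : (c + 12 * x ^ 2) * r ≤ 1 - 4 / 5 * x := by nlinarith
    have h2 := pow_le_pow_left₀ (by positivity) h1 2
    rw [mul_pow, hr] at h2
    have h3 : x ^ 2 ≤ x / 100 := by nlinarith
    have h4 : (x ^ 2) ^ 2 ≤ (x / 100) ^ 2 := by gcongr
    nlinarith

theorem two {x y : ℝ} (hy : 0 ≤ y) (h : x ≤ y) : 1 + x / y ≤ 2 := by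
  linarith [div_le_one_of_le₀ h hy]

theorem s4 {N ρ G : ℝ} (ρ0 : 0 ≤ ρ) (r1 : ρ ≤ 1) (G1 : 1 ≤ G) :
    N * (ρ - 1) ^ 2 ≤ G * √(N * (N - N * ρ)) := by
  refine le_trans ?_ (le_mul_of_one_le_left (Real.sqrt_nonneg _) G1)
  refine Real.le_sqrt_of_sq_le ?_
  have : (1 - ρ) ^ 4 ≤ (1 - ρ) ^ 1 := pow_le_pow_of_le_one (by linarith) (by linarith) (by norm_num)
  nlinarith [mul_le_mul_of_nonneg_left this (sq_nonneg N)]

theorem s5 {N u v w : ℝ} (N0 : 0 ≤ N) (b1 : N * u ^ 2 ≤ 1) (b2 : N * v ^ 2 ≤ 1)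
    (b3 : N * w ^ 2 ≤ 1) : N * (12 * u - v + w) ^ 2 ≤ 1000 := by
  have : (12 * u - v + w) ^ 2 ≤ 3 * (144 * u ^ 2 + v ^ 2 + w ^ 2) := by
    nlinarith [sq_nonneg (12 * u + v), sq_nonneg (12 * u - w), sq_nonneg (v + w)]
  nlinarith [mul_le_mul_of_nonneg_left this N0]

theorem s2 {g X N t c Z H G : ℝ} (g1 : 1 ≤ g) (gX : g ≤ X) (N1 : X ^ 3 ≤ N) (n2 : N ≤ X ^ 3 * g)
    (t0 : 0 ≤ t) (c1 : c ≤ 1) (Z1 : N / X ≤ Z) (hH : 1 / 2 ≤ H) (hG : 1000 * g ≤ G) :
    max (12 * N / X ^ 2 - t + c) 0 ^ 2 ≤ G * Z * H := by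
  have X0 : 0 < X := by linarith
  have N0 : 0 < N := lt_of_lt_of_le (by positivity) N1
  have b1 : (N / X ^ 2) ^ 2 ≤ g * (N / X) := by
    calc _ = N / X ^ 3 * (N / X) := by field_simp
      _ ≤ _ := by gcongr; rw [div_le_iff₀ (by positivity)]; linarith
  have b2 : 1 ≤ N / X ^ 2 := by
    rw [one_le_div (by positivity)]
    exact (pow_le_pow_right₀ (by linarith) (by norm_num)).trans N1
  have b3 : 0 ≤ N / X := by positivity
  calc _ ≤ (13 * (N / X ^ 2)) ^ 2 := pow_le_pow_left₀ (le_max_right _ _) (max_le (by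
        rw [mul_div_assoc]; linarith) (by positivity)) 2
    _ ≤ 1000 * g * (N / X) * (1 / 2) := by
        have : 0 ≤ g * (N / X) := by positivity
        linarith
    _ ≤ _ := by
        have : 0 ≤ G := by linarith
        have : 0 ≤ Z := by linarith
        gcongr

/-- the factors of one game in the initial state -/
theorem phis {g X n d k c ρ H H' G1 G2 G3 G4 : ℝ} (g1 : 1 ≤ g) (gX : g ≤ X) (n1 : X ^ 3 ≤ n)
    (n2 : n * d ≤ X ^ 3 * g) (d1 : 1 ≤ d) (d2 : d ≤ g) (c0 : 0 ≤ c) (hk : k = c + 12 * (1 / X) ^ 2)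
    (k1 : k ≤ 1) (ρ0 : 0 ≤ ρ) (ρ1 : ρ ≤ 1 - 1 / X) (hH : 1 / 2 ≤ H) (hH' : 1 / 2 ≤ H')
    (e1 : 1000 * g ≤ G1) (e2 : 2 ≤ G2) (e3 : 1 ≤ G3) (e4 : 2000 ≤ G4) :
    (1 + X ^ 2 * (n * d * ρ) / (n * d * (n * d - n * d * ρ))) *
    (1 + max (n * d * (k * (1 - 1 / n) - c * (1 - 1 / (n * d)))) 0 ^ 2 /
      (G1 * (n * d - n * d * ρ) * H)) *
    (1 + max (-(n * d * (k * (1 - 1 / n) - c * (1 - 1 / (n * d))))) 0 ^ 2 /
      (G2 * (n * d - n * d * ρ) * H)) *
    (1 + n * d * (ρ - 1) ^ 2 / (G3 * √(n * d * (n * d - n * d * ρ)))) *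
    (1 + n * d * (k * (1 - 1 / n) - c * (1 - 1 / (n * d))) ^ 2 / (G4 * H')) ≤ 32 := by
  have X1 : 1 ≤ X := by linarith
  have X0 : 0 < X := by linarith
  have n0 : 0 < n := lt_of_lt_of_le (by positivity) n1
  have nN : n ≤ n * d := le_mul_of_one_le_right n0.le d1
  have y1 : n * d * (k * (1 - 1 / n) - c * (1 - 1 / (n * d))) =
      12 * (n * d) / X ^ 2 - k * d + c := by rw [hk]; field_simp; ring
  have y2 : k * (1 - 1 / n) - c * (1 - 1 / (n * d)) =
      12 * (1 / X ^ 2) - k / n + c / (n * d) := by rw [hk]; field_simp; ring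
  have k0 : c ≤ k := hk ▸ le_add_of_nonneg_right (by positivity)
  have dn : d ≤ n := d2.trans (gX.trans ((le_self_pow₀ X1 (by norm_num)).trans n1))
  have y3 : n * d * (k / n) ^ 2 ≤ 1 := by
    calc _ ≤ n * n * (1 / n) ^ 2 := by gcongr; exact div_nonneg (c0.trans k0) n0.le
      _ = 1 := by field_simp
  rw [y1, y2]
  have N1 := n1.trans nN
  have kd : k * d ≤ X := (mul_le_of_le_one_left (by linarith) k1).trans (d2.trans gX)
  have kd0 : 0 ≤ k * d := mul_nonneg (c0.trans k0) (by linarith)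
  clear y1 y2 hk
  generalize n * d = N at *
  have N0 : 0 < N := by linarith
  have Z1 : N / X ≤ N - N * ρ := by
    have := mul_le_mul_of_nonneg_left ρ1 N0.le
    rw [div_eq_mul_one_div]; linarith
  have Z2 : X ^ 2 ≤ N / X := by rw [le_div_iff₀ X0]; linarith
  have X2 : 1 ≤ X ^ 2 := one_le_pow₀ X1
  have Z0 : 0 < N - N * ρ := by linarith
  have r1 : ρ ≤ 1 := ρ1.trans (sub_le_self _ (by positivity))
  have a1 : X ^ 2 * (N * ρ) ≤ N * (N - N * ρ) := by
    calc _ ≤ N / X * (N * 1) := by gcongr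
      _ ≤ (N - N * ρ) * (N * 1) := by gcongr
      _ = _ := by ring
  have a2 := s2 g1 gX N1 n2 kd0 (k0.trans k1) Z1 hH e1
  have a3 : max (-(12 * N / X ^ 2 - k * d + c)) 0 ^ 2 ≤ G2 * (N - N * ρ) * H := by
    have b1 : 0 ≤ 12 * N / X ^ 2 := by positivity
    calc _ ≤ X ^ 2 := pow_le_pow_left₀ (le_max_right _ _) (max_le (by linarith) X0.le) 2
      _ = 2 * X ^ 2 * (1 / 2) := by ring
      _ ≤ _ := by gcongr; linarith
  have a4 := s4 (N := N) ρ0 r1 e3
  have a5 : N * (12 * (1 / X ^ 2) - k / n + c / N) ^ 2 ≤ G4 * H' := by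
    refine (s5 N0.le ?_ y3 ?_).trans (le_trans (by norm_num)
      (mul_le_mul e4 hH' (by norm_num) (by linarith)))
    · calc _ ≤ X ^ 3 * X * (1 / X ^ 2) ^ 2 := by gcongr; exact n2.trans (by gcongr)
        _ = 1 := by field_simp
    · have : N ≤ N * N := le_mul_of_one_le_left N0.le ((one_le_pow₀ X1).trans N1)
      have := k0.trans k1
      calc _ ≤ N * N * (1 / N) ^ 2 := by gcongr
        _ = 1 := by field_simp
  calc _ ≤ (2 : ℝ) * 2 * 2 * 2 * 2 := by
        have : 0 < H := by linarith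
        have : 0 < H' := by linarith
        have : 0 < G1 := by linarith
        have : 0 < G2 := by linarith
        have : 0 < G3 := by linarith
        have : 0 < G4 := by linarith
        gcongr <;> exact two (by positivity) ‹_›
    _ = 32 := by norm_num

end InitB

open InitB

variable {n d g : ℕ} (h : Reg n d g)
include h

theorem Reg.sqY {i j : ℕ} (hi : i ∈ range (n * d)) (hj : j ∈ range (n * d)) :
    ∑ l ∈ range (n * d), Y0 ℝ n d g i l * Y0 ℝ n d g l j =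
      (k0 ℝ d g ^ 2 * d - 2 * k0 ℝ d g * cc ℝ d g) * ((if i / d = j / d then 1 else 0) - 1 / n) +
        cc ℝ d g ^ 2 * ((if i = j then 1 else 0) - 1 / (n * d)) := by
  have n0 : (n : ℝ) ≠ 0 := Nat.cast_ne_zero.2 h.n_pos.ne'
  have d3 := h.d3
  have e : ∀ l, Y0 ℝ n d g i l * Y0 ℝ n d g l j = k0 ℝ d g * ((k0 ℝ d g *
      ((if i / d = j / d then 1 else 0) - 1 / n) + cc ℝ d g / (n * d)) *
        (if j / d = l / d then 1 else 0) -
      if i = l then cc ℝ d g * (if i / d = j / d then 1 else 0) else 0) -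
      (k0 ℝ d g / n - cc ℝ d g / (n * d)) * Y0 ℝ n d g i l -
      if l = j then cc ℝ d g * Y0 ℝ n d g i j else 0 := fun l => by
    have : Y0 ℝ n d g i l * (if l / d = j / d then 1 else 0) = (k0 ℝ d g *
        ((if i / d = j / d then 1 else 0) - 1 / n) + cc ℝ d g / (n * d)) *
          (if j / d = l / d then 1 else 0) -
        if i = l then cc ℝ d g * (if i / d = j / d then 1 else 0) else 0 := by
      rw [Y0_eq]
      by_cases h1 : l / d = j / d
      · rw [if_pos h1, if_pos h1.symm, h1]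
        split_ifs with h2 h3 h3
        · ring
        · ring
        · exact absurd (h3 ▸ h1) h2
        · ring
      · rw [if_neg h1, if_neg (Ne.symm h1)]
        by_cases h3 : i = l
        · rw [if_pos h3, if_pos h3, if_neg (show ¬ i / d = j / d from h3 ▸ h1)]; ring
        · rw [if_neg h3, if_neg h3]; ring
    rw [← this, Y0_eq n d g l j]
    by_cases h2 : l = j
    · rw [if_pos h2, if_pos h2, h2]; ring
    · rw [if_neg h2, if_neg h2]; ring
  simp only [e, sum_sub_distrib, ← mul_sum, cnt (by have := h.hd; omega) hj, sum_ite_eq, sum_ite_eq',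
    if_pos hi, if_pos hj, h.init_game.row i hi]
  rw [Y0_eq]
  field_simp
  ring

theorem Reg.r_bd : 0 ≤ k0 ℝ d g ^ 2 * d - 2 * k0 ℝ d g * cc ℝ d g ∧
    k0 ℝ d g ^ 2 * d - 2 * k0 ℝ d g * cc ℝ d g + cc ℝ d g ^ 2 ≤ 1 - 1 / (g : ℝ) ^ 4000 := by
  have d3 := h.d3
  have g1 := h.g1
  have g2 := h.g2
  rw [k0, h.e_eq]
  refine rhos h.cc_pos h.cc_hi (Real.sq_sqrt (by linarith)) (Real.sqrt_nonneg _) d3 (by positivity)
    (h.xi_le.trans (by norm_num)) ?_
  have c3 : √((d : ℝ) - 1) ≤ g := Real.sqrt_le_iff.2 ⟨by linarith, by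
    have : (2 * d : ℝ) ≤ g := by exact_mod_cast h.dg
    nlinarith⟩
  have := pow_le_pow_right₀ g2 (show 2 ≤ 4000 by norm_num)
  rw [one_div_mul_eq_div, div_le_iff₀ (by positivity)]
  nlinarith

theorem Reg.rho0 : ∃ ρ : ℝ, 0 ≤ ρ ∧ ρ ≤ 1 - 1 / (g : ℝ) ^ 4000 ∧
    ∀ i ∈ range (n * d), rho (range (n * d)) (Y0 ℝ n d g) i = ρ := by
  obtain ⟨a, b⟩ := h.r_bd
  have n1 : (1 : ℝ) ≤ n := by exact_mod_cast h.n_pos
  have d3 := h.d3
  have e1 : 1 / (n : ℝ) ≤ 1 := div_le_one_of_le₀ n1 (by linarith)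
  have e2 : 1 / ((n : ℝ) * d) ≤ 1 := div_le_one_of_le₀ (by nlinarith) (by positivity)
  refine ⟨(k0 ℝ d g ^ 2 * d - 2 * k0 ℝ d g * cc ℝ d g) * (1 - 1 / n) +
    cc ℝ d g ^ 2 * (1 - 1 / (n * d)), add_nonneg (mul_nonneg a (by linarith))
      (mul_nonneg (sq_nonneg _) (by linarith)), le_trans (add_le_add (mul_le_of_le_one_right a
      (sub_le_self _ (by positivity))) (mul_le_of_le_one_right (sq_nonneg _)
      (sub_le_self _ (by positivity)))) b, fun i hi => ?_⟩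
  have := h.sqY hi hi
  rw [if_pos rfl, if_pos rfl] at this
  rw [← this]
  exact sum_congr rfl fun j hj => by rw [sq, h.init_game.symm j hj i hi]

theorem Reg.init_Z : (n * d : ℝ) / (g : ℝ) ^ 4000 ≤ zz (range (n * d)) (Y0 ℝ n d g) := by
  obtain ⟨ρ, -, r1, r⟩ := h.rho0
  rw [zz, tau2, sum_congr rfl r, sum_const, card_range, nsmul_eq_mul, Nat.cast_mul,
    div_eq_mul_one_div]
  linarith [mul_le_mul_of_nonneg_left r1 (show (0 : ℝ) ≤ n * d by positivity)]

theorem Reg.init_zz : 0 < zz (range (n * d)) (Y0 ℝ n d g) := by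
  have := h.g2
  have := h.d3
  have : (0 : ℝ) < n := Nat.cast_pos.2 h.n_pos
  exact lt_of_lt_of_le (by positivity) h.init_Z

theorem Reg.N_bd : (g : ℝ) ^ 12000 ≤ n ∧ (n * d : ℝ) ≤ (g : ℝ) ^ 12000 * g ∧ (d : ℝ) ≤ g := by
  have a : (n : ℝ) ≤ 2 * (g : ℝ) ^ 12000 := by exact_mod_cast h.hi
  have b : (2 * d : ℝ) ≤ g := by exact_mod_cast h.dg
  have := h.d3
  refine ⟨by exact_mod_cast h.lo, ?_, by linarith⟩
  calc _ ≤ 2 * (g : ℝ) ^ 12000 * d := by gcongr
    _ = (g : ℝ) ^ 12000 * (2 * d) := by ring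
    _ ≤ _ := by gcongr

theorem Reg.init_phi1 : phi1 (g : ℝ) (range (n * d)) (Y0 ℝ n d g)
    √((range (n * d)).card * zz (range (n * d)) (Y0 ℝ n d g)) ≤ 32 := by
  obtain ⟨ρ, r0, r1, r⟩ := h.rho0
  obtain ⟨a, b, c⟩ := h.N_bd
  have d3 := h.d3
  have e : (g : ℝ) ^ 12000 = ((g : ℝ) ^ 4000) ^ 3 := pow_mul _ 4000 3
  have y : ∀ i, Y0 ℝ n d g i i = k0 ℝ d g * (1 - 1 / n) - cc ℝ d g * (1 - 1 / (n * d)) := fun i => by
    rw [Y0_eq, if_pos rfl, if_pos rfl]
  have v : vS (range (n * d)) (Y0 ℝ n d g) = n * d * (ρ - 1) ^ 2 := by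
    rw [vS, sum_congr rfl fun i hi => by rw [r i hi], sum_const, card_range, nsmul_eq_mul,
      Nat.cast_mul]
  simp only [phi1, zz, tau2, sum_congr rfl r, v, tau1, dS, y, sum_const, card_range, nsmul_eq_mul,
    Nat.cast_mul]
  have g1 := h.g1
  have g2 := h.g2
  have N1 : (g : ℝ) ^ 12000 ≤ n * d := a.trans (le_mul_of_one_le_right n.cast_nonneg (by linarith))
  have N0 : (0 : ℝ) < n * d := lt_of_lt_of_le (by positivity) N1
  have f : ∀ j ≤ 12000, 1 / 2 ≤ (n * d : ℝ) / (n * d + (g : ℝ) ^ j) := fun j hj =>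
    ((Num.frac N0 (by positivity)).2.1 ((pow_le_pow_right₀ g2 hj).trans N1)).1
  have f2 : ∀ j ≠ 0, 2000 ≤ (g : ℝ) ^ j := fun j hj => le_trans (by linarith) (le_self_pow₀ g2 hj)
  rw [show (g : ℝ) ^ 8000 = ((g : ℝ) ^ 4000) ^ 2 from pow_mul _ 4000 2]
  refine phis g2 (le_self_pow₀ g2 (by norm_num)) (e ▸ a) (e ▸ b) (by linarith) c h.cc_pos.le
    (by rw [k0, h.e_eq]) ?_ r0 r1 (f _ (by norm_num)) (f _ (by norm_num)) ?_
    (le_trans (by norm_num) (f2 _ (by norm_num))) (one_le_pow₀ g2) (f2 _ (by norm_num))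
  swap
  · rw [pow_succ]
    exact mul_le_mul_of_nonneg_right (le_trans (by norm_num) (f2 _ (by norm_num))) (by linarith)
  have h3 := h.xi_le
  have h4 : 0 ≤ 1 / (g : ℝ) ^ 4000 := by positivity
  rw [k0, h.e_eq]
  nlinarith [h.cc_sq, sq_nonneg (cc ℝ d g - 1)]

theorem Reg.init_nS : nS (range (n * d)) (Y0 ℝ n d g) (Y0 ℝ n d g) ≤ (g : ℝ) ^ 14000 := by
  obtain ⟨a, b⟩ := h.r_bd
  obtain ⟨a1, a2, a3⟩ := h.N_bd
  have n1 : (1 : ℝ) ≤ n := by exact_mod_cast h.n_pos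
  have d3 := h.d3
  have g1 := h.g1
  have g2 := h.g2
  have b1 := b.trans (sub_le_self _ (by positivity))
  have e1 : 1 / (n : ℝ) ≤ 1 := div_le_one_of_le₀ n1 (by linarith)
  have e0 : 0 < 1 / ((n : ℝ) * d) := by positivity
  have e2 : 1 / ((n : ℝ) * d) ≤ 1 / n := one_div_le_one_div_of_le (by linarith) (by nlinarith)
  calc _ ≤ ∑ i ∈ range (n * d), ∑ j ∈ range (n * d),
        ((if i / d = j / d then 1 else 0) + (1 / n) ^ 2 : ℝ) := by
        refine sum_le_sum fun i hi => sum_le_sum fun j hj => ?_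
        rw [h.sqY hi hj]
        have c0 := sq_nonneg (cc ℝ d g)
        generalize cc ℝ d g ^ 2 = C at *
        generalize k0 ℝ d g ^ 2 * d - 2 * k0 ℝ d g * cc ℝ d g = A at *
        generalize 1 / ((n : ℝ) * d) = u at *
        generalize 1 / (n : ℝ) = v at *
        split_ifs with h1 h2 h2
        · exact le_add_of_le_of_nonneg ((sq_le_one_iff_abs_le_one _).2 (abs_le.2
            ⟨by nlinarith, by nlinarith⟩)) (sq_nonneg _)
        · exact le_add_of_le_of_nonneg ((sq_le_one_iff_abs_le_one _).2 (abs_le.2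
            ⟨by nlinarith, by nlinarith⟩)) (sq_nonneg _)
        · exact absurd (h2 ▸ rfl) h1
        · rw [zero_add]
          exact sq_le_sq' (by nlinarith) (by nlinarith)
    _ = n * d * d + d ^ 2 := by
        rw [sum_congr rfl fun i hi => by rw [sum_add_distrib, cnt (by have := h.hd; omega) hi]]
        simp only [sum_const, card_range, nsmul_eq_mul, Nat.cast_mul]
        field_simp
    _ ≤ (g : ℝ) ^ 12000 * g * g + (g : ℝ) ^ 12000 * g * g := by
        refine add_le_add (by gcongr) ?_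
        rw [mul_assoc]
        exact le_trans (by nlinarith) (le_mul_of_one_le_left (by positivity) (one_le_pow₀ g2))
    _ = 2 * (g : ℝ) ^ 12002 := by ring
    _ ≤ g * (g : ℝ) ^ 12002 := by gcongr; linarith
    _ = (g : ℝ) ^ 12003 := by ring
    _ ≤ _ := pow_le_pow_right₀ g2 (by norm_num)

theorem Reg.init_b : 0 ≤ bG (g : ℝ) d [] (range (n * d)) ∧
    bG (g : ℝ) d [] (range (n * d)) ≤ ((range (n * d)).card : ℝ) ^ 2 := by
  obtain ⟨a1, -, -⟩ := h.N_bd
  have e : bG (g : ℝ) d [] (range (n * d)) = (g : ℝ) ^ 11980 * ∑ i ∈ range (n * d),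
      c1 ℝ d (range (n * d)) i := by simp [bG, bh, c2, adjV]
  rw [e]
  refine ⟨mul_nonneg (pow_nonneg g.cast_nonneg _) (sum_nonneg fun i _ => sum_nonneg fun j _ => by
    cases (!P337.neq j i && P337.neq (j / d) (i / d)) <;> simp), ?_⟩
  calc _ ≤ (n : ℝ) * ∑ _i ∈ range (n * d), (d : ℝ) := by
        refine mul_le_mul ((pow_le_pow_right₀ h.g2 (by norm_num)).trans a1) (sum_le_sum fun i hi =>
          le_trans (sum_le_sum fun j _ => ?_) (cnt (by have := h.hd; omega) hi).le)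
          (sum_nonneg fun i _ => sum_nonneg fun j _ => by
            cases (!P337.neq j i && P337.neq (j / d) (i / d)) <;> simp) n.cast_nonneg
        by_cases h1 : i / d = j / d
        · rw [if_pos h1]
          cases (!P337.neq j i && P337.neq (j / d) (i / d)) <;> simp
        · simp [P337.neq, h1, Ne.symm h1]
    _ = _ := by simp; ring

theorem Reg.init_phi : ((range (n * d)).card : ℝ) * Phi g (range (n * d)) (Y0 ℝ n d g) (Y0 ℝ n d g)
    (bG (g : ℝ) d [] (range (n * d))) ≤ (g : ℝ) ^ 120000 := by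
  obtain ⟨-, a2, -⟩ := h.N_bd
  have g1 := h.g1
  have g2 := h.g2
  have z := h.init_zz
  have p0 := zero_le_one.trans (one_le_phi1 g2 z
    (Real.sqrt_nonneg ((range (n * d)).card * zz (range (n * d)) (Y0 ℝ n d g))))
  have b1 := two (sq_nonneg _) h.init_b.2
  have b0 := zero_le_one.trans (FactA.one_le h.init_b.1 (sq_nonneg ((range (n * d)).card : ℝ)))
  have c1 := two (pow_nonneg (by linarith) _) h.init_nS
  have c0 := zero_le_one.trans (FactA.nS_fac g2 (range (n * d)) (Y0 ℝ n d g) (Y0 ℝ n d g))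
  have r0 := zero_le_one.trans (FactA.ratio z)
  have r1 : (range (n * d)).card / zz (range (n * d)) (Y0 ℝ n d g) ≤ (g : ℝ) ^ 4000 := by
    rw [div_le_iff₀' z, card_range, Nat.cast_mul]
    exact (div_le_iff₀ (by positivity)).1 h.init_Z
  have p1 := (mul_le_mul (mul_le_mul (mul_le_mul h.init_phi1 h.init_phi1 p0 (by norm_num)) c1 c0
    (by norm_num)) b1 b0 (by norm_num)).trans (show 32 * 32 * 2 * 2 ≤ (g : ℝ) by linarith)
  have g0 : ∀ k, 0 ≤ (g : ℝ) ^ k := fun k => by positivity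
  have a3 : ((range (n * d)).card : ℝ) ≤ (g : ℝ) ^ 12000 * g := by
    rwa [card_range, Nat.cast_mul]
  have p2 := mul_le_mul (mul_le_mul (pow_le_pow_left₀
    (mul_nonneg (mul_nonneg (mul_nonneg p0 p0) c0) b0) p1 12000) r1 r0 (g0 _)) r1 r0
    (mul_nonneg (g0 _) (g0 _))
  refine (mul_le_mul a3 p2
    (zero_le_one.trans (one_le_Phi g2 z z h.init_b.1)) (by positivity)).trans ?_
  rw [← pow_succ, ← pow_add, ← pow_add, ← pow_add]
  exact pow_le_pow_right₀ g2 (by norm_num)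

theorem Reg.init_inv : Inv n d g (range (n * d)) (Y0 ℝ n d g) (Y0 ℝ n d g) [] :=
  ⟨⟨subset_rfl, by simp [halves], by simp [halves], by simp, List.Pairwise.nil⟩, h.init_game,
    h.init_game, h.init_zz, h.init_zz, h.init_dom, h.init_dom, h.init_phi⟩

end Vale.Agent.P049
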