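import Vale.Agent.P049.Iter
import Vale.Agent.P049.InitB
import Vale.Agent.P049.AlgA

set_option maxRecDepth 100000

namespace Vale.Agent.P049

open Finset

/-- Real matrices of a state. -/
def matR (L : List (List ℚ)) (i j : ℕ) : ℝ := (mat L i j : ℝ)

namespace AlgS

variable (F : Finset ℕ) (Y Y' : ℕ → ℕ → ℚ)

theorem dl_cast (σ : ℚ) (α β : ℕ) :
    ((dl F σ Y α β : ℚ) : ℝ) = dl F (σ : ℝ) (fun i j => (Y i j : ℝ)) α β := by
  simp only [dl, sS, aS]; push_cast; rfl

theorem upd_cast (σ : ℚ) (α β i j : ℕ) :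
    ((upd F σ Y α β i j : ℚ) : ℝ) = upd F (σ : ℝ) (fun i j => (Y i j : ℝ)) α β i j := by
  simp only [upd, cen, mM, dl, sS, aS]; push_cast; rfl

theorem rnd_cast (Q i j : ℕ) :
    ((rnd Q F Y i j : ℚ) : ℝ) = rnd Q F (fun i j => (Y i j : ℝ)) i j := by
  have e : ∀ x : ℚ, ⌊(Q : ℝ) * (x : ℝ)⌋ = ⌊(Q : ℚ) * x⌋ := fun x => by
    rw [← Rat.floor_cast (α := ℝ)]; push_cast; rfl
  simp only [rnd, e, apply_ite ((↑) : ℚ → ℝ), Rat.cast_neg, Rat.cast_sum, Rat.cast_div,
    Rat.cast_zero, Rat.cast_intCast, Rat.cast_natCast]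

theorem zz_cast : ((zz F Y : ℚ) : ℝ) = zz F fun i j => (Y i j : ℝ) := by
  simp only [zz, tau2, rho]; push_cast; rfl

theorem tHat_cast (Q : ℕ) : ((tHat Q F Y : ℚ) : ℝ) = tHat Q F fun i j => (Y i j : ℝ) := by
  simp only [tHat]
  rw [← zz_cast, ← Rat.floor_cast (α := ℝ)]; push_cast; rfl

theorem phi1_cast (g t : ℚ) :
    ((phi1 g F Y t : ℚ) : ℝ) = phi1 (g : ℝ) F (fun i j => (Y i j : ℝ)) t := by
  simp only [phi1, zz, tau2, rho, tau1, vS, dS, hh, h2]; push_cast; rfl

theorem phiH_cast (Q : ℕ) (g b : ℚ) : ((phiH Q g F Y Y' b : ℚ) : ℝ)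
    = phiH Q (g : ℝ) F (fun i j => (Y i j : ℝ)) (fun i j => (Y' i j : ℝ)) b := by
  simp only [phiH, phiT, nS, ← phi1_cast, ← tHat_cast, ← zz_cast]; push_cast; rfl

theorem bG_cast (g : ℚ) (d : ℕ) (E : List (ℕ × ℕ)) : ((bG g d E F : ℚ) : ℝ) = bG (g : ℝ) d E F := by
  simp only [bG, bh, c1, c2]; push_cast
  simp only [Bool.apply_cond ((↑) : ℚ → ℝ), Rat.cast_one, Rat.cast_zero]

theorem good_cast (d g : ℕ) (E : List (ℕ × ℕ)) :
    Good d g F Y Y' E ↔ Good d g F (fun i j => (Y i j : ℝ)) (fun i j => (Y' i j : ℝ)) E := by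
  have e := phiH_cast F Y Y' (g ^ 200000) g (bG (g : ℚ) d E F)
  rw [bG_cast, Rat.cast_natCast] at e
  unfold Good
  rw [← e, ← zz_cast, ← zz_cast]
  exact and_congr (by norm_cast) (and_congr (by norm_cast) (by norm_cast))

theorem Y0_cast (n d g i j : ℕ) : ((Y0 ℚ n d g i j : ℚ) : ℝ) = Y0 ℝ n d g i j := by
  simp only [Y0, k0, cc]; push_cast
  simp only [Bool.apply_cond ((↑) : ℚ → ℝ), Rat.cast_one, Rat.cast_zero]

theorem mem_FF {b : List Bool} {i : ℕ} (h : i ∈ FF b) : i < b.length :=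
  mem_range.1 (mem_filter.1 h).1

end AlgS

open AlgS

theorem nx_cast (g : ℕ) (F : Finset ℕ) (σ : ℚ) (Y : ℕ → ℕ → ℚ) (α β i j : ℕ) :
    ((nx g F σ Y α β i j : ℚ) : ℝ) = nx g F (σ : ℝ) (fun i j => (Y i j : ℝ)) α β i j := by
  simp only [nx, rnd_cast, upd_cast]

theorem test_cast (d g : ℕ) (F : Finset ℕ) (Y Y' : ℕ → ℕ → ℚ) (E : List (ℕ × ℕ)) (α β : ℕ) :
    Test d g F Y Y' E α β ↔
      Test d g F (fun i j => (Y i j : ℝ)) (fun i j => (Y' i j : ℝ)) E α β := by
  have e1 := dl_cast F Y 1 α β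
  have e2 := dl_cast F Y' (-1) α β
  have e3 := good_cast (rem F α β) (nx g F 1 Y α β) (nx g F (-1) Y' α β) d g ((α, β) :: E)
  simp only [nx_cast, Rat.cast_one, Rat.cast_neg] at e1 e2 e3
  unfold Test
  rw [← e1, ← e2, e3, Rat.cast_pos, Rat.cast_pos]

namespace AlgS

open Vale.Agent.Common.TreeTM

theorem stp_inv {n d g : ℕ} (hr : Reg n d g) {s : St}
    (h : Inv n d g (FF s.1) (matR s.2.1) (matR s.2.2.1) s.2.2.2) :
    Inv n d g (FF (stp d g s).1) (matR (stp d g s).2.1) (matR (stp d g s).2.2.1) (stp d g s).2.2.2 ∧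
      (FF (stp d g s).1).card ≤ (FF s.1).card ∧
      (g ^ 3995 < (FF s.1).card → (FF (stp d g s).1).card < (FF s.1).card) := by
  by_cases hm : g ^ 3995 < (FF s.1).card
  swap
  · have : stp d g s = s := by simp [stp, nlt, hm]
    rw [this]; exact ⟨h, le_rfl, fun k => absurd k hm⟩
  obtain ⟨α, β, ht⟩ := h.exists_test hr hm
  have ht' := (test_cast d g (FF s.1) (mat s.2.1) (mat s.2.2.1) s.2.2.2 α β).2 ht
  have hc : (α, β) ∈ cands d g s := by
    simp only [cands, List.mem_filter, List.mem_flatMap, List.mem_map, idx, List.mem_range, tst,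
      decide_eq_true_eq]
    exact ⟨⟨α, mem_FF ht.1, β, mem_FF ht.2.1, rfl⟩, ht'⟩
  obtain ⟨e, l, he⟩ := List.exists_cons_of_ne_nil (List.ne_nil_of_mem hc)
  have hs : stp d g s = nxt g s e := by simp [stp, nlt, hm, he, isCons]
  have h1 : e ∈ cands d g s := by simp [he]
  have h2 : Test d g (FF s.1) (mat s.2.1) (mat s.2.2.1) s.2.2.2 e.1 e.2 :=
    of_decide_eq_true (List.mem_filter.1 h1).2
  have h3 := (test_cast _ _ _ _ _ _ _ _).1 h2
  have h4 := h.next hr hm h3
  have sub : rem (FF s.1) e.1 e.2 ⊆ (FF s.1).erase e.1 := erase_subset _ _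
  have lt : (rem (FF s.1) e.1 e.2).card < (FF s.1).card :=
    (card_le_card sub).trans_lt (card_erase_lt_of_mem h2.1)
  rw [hs]
  simp only [nxt, FF_off]
  refine ⟨h4.congr (fun i hi j hj => ?_) fun i hi j hj => ?_, lt.le, fun _ => lt⟩
  · rw [matR, mat_tab _ _ (mem_FF (mem_of_mem_erase (sub hi))) (mem_FF (mem_of_mem_erase (sub hj))),
      nx_cast, Rat.cast_one]; rfl
  · rw [matR, mat_tab _ _ (mem_FF (mem_of_mem_erase (sub hi))) (mem_FF (mem_of_mem_erase (sub hj))),
      nx_cast, Rat.cast_neg, Rat.cast_one]; rfl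

theorem fold_inv {n d g : ℕ} (hr : Reg n d g) (l : List Bool) {s : St}
    (h : Inv n d g (FF s.1) (matR s.2.1) (matR s.2.2.1) s.2.2.2)
    (hl : (FF s.1).card ≤ g ^ 3995 ∨ (FF s.1).card ≤ l.length) :
    Inv n d g (FF (l.foldl (fun s _ => stp d g s) s).1) (matR (l.foldl (fun s _ => stp d g s) s).2.1)
      (matR (l.foldl (fun s _ => stp d g s) s).2.2.1) (l.foldl (fun s _ => stp d g s) s).2.2.2 ∧
    (FF (l.foldl (fun s _ => stp d g s) s).1).card ≤ g ^ 3995 := by
  induction l generalizing s with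
  | nil => exact ⟨h, hl.elim id fun k => k.trans (Nat.zero_le _)⟩
  | cons a l ih =>
    obtain ⟨a1, a2, a3⟩ := stp_inv hr h
    refine ih a1 ?_
    by_cases k : g ^ 3995 < (FF s.1).card
    · have := a3 k
      have := hl.resolve_left (not_le.2 k)
      simp only [List.length_cons] at this
      exact Or.inr (show (FF (stp d g s).1).card ≤ l.length by omega)
    · exact Or.inl (a2.trans (not_lt.1 k))

theorem b0_eq (n d : ℕ) : b0 d (List.replicate n true) = List.replicate (n * d) true := by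
  induction n with
  | zero => simp [b0]
  | succ n ih =>
    rw [b0] at ih
    rw [b0, List.replicate_succ, List.flatMap_cons, ih, ← List.replicate_add]
    congr 1; ring

theorem FF_rep (N : ℕ) : FF (List.replicate N true) = range N := by
  ext i
  simp only [FF, List.length_replicate, mem_filter, mem_range, and_iff_left_iff_imp]
  intro h; simp [h]

end AlgS

theorem run_inv {n d : ℕ} (hr : Reg n d (gOf (List.replicate n true))) :
    Inv n d (gOf (List.replicate n true)) (FF (run d (List.replicate n true)).1)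
      (matR (run d (List.replicate n true)).2.1) (matR (run d (List.replicate n true)).2.2.1)
      (run d (List.replicate n true)).2.2.2 ∧
    (FF (run d (List.replicate n true)).1).card ≤ gOf (List.replicate n true) ^ 3995 := by
  refine AlgS.fold_inv hr _ ?_ (Or.inr ?_)
  · simp only [st0, b0_eq, FF_rep, List.length_replicate]
    have e : ∀ i ∈ range (n * d), ∀ j ∈ range (n * d), matR (tab (List.replicate (n * d) true)
        (Y0 ℚ n d (gOf (List.replicate n true)))) i j = Y0 ℝ n d (gOf (List.replicate n true)) i j :=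
      fun i hi j hj => by
        rw [matR, mat_tab _ _ (by simpa using hi) (by simpa using hj), Y0_cast]
    exact hr.init_inv.congr e e
  · simp only [st0, b0_eq, FF_rep, List.length_replicate, card_range, le_refl]

end Vale.Agent.P049
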