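import Vale.Agent.P049.G

set_option maxRecDepth 100000

namespace Vale.Agent.P049

open Finset

namespace Init

theorem sum_div_eq {d : ℕ} (hd : 0 < d) (n : ℕ) (F : ℕ → ℝ) :
    ∑ i ∈ range (n * d), F (i / d) = d * ∑ v ∈ range n, F v := by
  induction n with
  | zero => simp
  | succ n ih =>
    rw [Nat.succ_mul, sum_range_add, ih, sum_range_succ, mul_add,
      sum_congr (s₁ := range d) (g := fun _ => F n) rfl fun x hx => by
      rw [mul_comm n, Nat.mul_add_div hd, Nat.div_eq_of_lt (mem_range.1 hx), add_zero]]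
    simp

theorem div_mem {n d i : ℕ} (hi : i ∈ range (n * d)) : i / d ∈ range n :=
  mem_range.2 (Nat.div_lt_of_lt_mul (by rw [mul_comm]; exact mem_range.1 hi))

/-- sums over the half-edges of a vertex -/
noncomputable def ph (N d : ℕ) (y : ℕ → ℝ) (v : ℕ) : ℝ := ∑ i ∈ range N, if v = i / d then y i else 0

theorem sum_mul_eq (n d : ℕ) (y F : ℕ → ℝ) :
    ∑ i ∈ range (n * d), y i * F (i / d) = ∑ v ∈ range n, ph (n * d) d y v * F v := by
  simp only [ph, sum_mul, ite_mul, zero_mul]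
  rw [sum_comm]
  exact sum_congr rfl fun i hi => by rw [sum_ite_eq', if_pos (div_mem hi)]

theorem Y0_eq (n d g i j : ℕ) : Y0 ℝ n d g i j = k0 ℝ d g * ((if i / d = j / d then 1 else 0) - 1 / n) -
    cc ℝ d g * ((if i = j then 1 else 0) - 1 / (n * d)) := by
  simp [Y0, Vale.Agent.P337.neq, Bool.cond_decide]

theorem cnt {n d i : ℕ} (hd : 0 < d) (hi : i ∈ range (n * d)) :
    ∑ j ∈ range (n * d), (if i / d = j / d then (1 : ℝ) else 0) = d := by
  rw [sum_div_eq hd n fun v => if i / d = v then (1 : ℝ) else 0, sum_ite_eq, if_pos (div_mem hi),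
    mul_one]

theorem uus {c r e : ℝ} (c0 : 0 < c) (hc : c ^ 2 ≤ 1 / 2) (e0 : 0 ≤ e) (e1 : e ≤ 1 / 4)
    (h : (1 - c * r) ^ 2 ≤ e / 3) : c * (r ^ 2 + 1) + (1 - c ^ 2) / (c + e) ≤ 2 * r := by
  have h1 : c + e ≤ 1 := by nlinarith
  have h2 : (c + e) * (1 - c * r) ^ 2 ≤ (1 - c ^ 2) * e := by
    nlinarith [mul_le_mul_of_nonneg_right h1 (sq_nonneg (1 - c * r)),
      mul_le_mul_of_nonneg_right hc e0]
  rw [← le_sub_iff_add_le', div_le_iff₀ (by positivity)]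
  refine le_of_mul_le_mul_left ?_ c0
  linarith

theorem qf_eq {n d : ℕ} (g : ℕ) (hn : 0 < n) (y : ℕ → ℝ) :
    qf (range (n * d)) (Y0 ℝ n d g) y + cc ℝ d g * pd (range (n * d)) y y = k0 ℝ d g *
      ∑ v ∈ range n, (ph (n * d) d y v - (∑ i ∈ range (n * d), y i) / n) ^ 2 := by
  have n0 : (n : ℝ) ≠ 0 := Nat.cast_ne_zero.2 hn.ne'
  have e1 := sum_mul_eq n d y fun _ => 1
  have e2 := sum_mul_eq n d y (ph (n * d) d y)
  simp only [mul_one] at e1
  have e3 : ∀ i ∈ range (n * d), ∑ j ∈ range (n * d), y i * Y0 ℝ n d g i j * y j =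
      k0 ℝ d g * (y i * ph (n * d) d y (i / d)) - cc ℝ d g * (y i * y i) -
      (k0 ℝ d g / n - cc ℝ d g / (n * d)) * (∑ j ∈ range (n * d), y j) * y i := fun i hi => by
    have : y i * y i = ∑ j ∈ range (n * d), if i = j then y i * y j else 0 := by
      rw [sum_ite_eq, if_pos hi]
    simp only [this, ph, mul_sum, sum_mul, ← sum_sub_distrib, Y0_eq]
    exact sum_congr rfl fun j _ => by split_ifs <;> ring
  rw [qf, sum_congr rfl e3, pd]
  simp only [sum_sub_distrib, ← mul_sum, e2, sub_sq, sum_add_distrib, ← sum_mul, ← e1, sum_const,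
    card_range, nsmul_eq_mul, Nat.cast_mul, ← sq]
  field_simp
  ring

end Init

open Init

variable {n d g : ℕ} (h : Reg n d g)
include h

theorem Reg.g1 : (10 : ℝ) ^ 30 ≤ g := by exact_mod_cast h.hg
theorem Reg.g2 : (1 : ℝ) ≤ g := le_trans (by norm_num) h.g1
theorem Reg.d3 : (3 : ℝ) ≤ d := by exact_mod_cast h.hd
theorem Reg.n_pos : 0 < n :=
  lt_of_lt_of_le (pow_pos (lt_of_lt_of_le (by norm_num) h.hg) _) h.lo
theorem Reg.xi_le : 1 / (g : ℝ) ^ 4000 ≤ 1 / 10 ^ 30 :=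
  one_div_le_one_div_of_le (by norm_num) (h.g1.trans (le_self_pow₀ h.g2 (by norm_num)))

theorem Reg.cc_bd : 1 - 2 / (g : ℝ) ^ 4000 ≤ cc ℝ d g * √(d - 1) ∧
    cc ℝ d g * √(d - 1) ≤ 1 - 1 / (g : ℝ) ^ 4000 := by
  have g2 := h.g2
  have g0 : (0 : ℝ) < g := by linarith
  have d3 := h.d3
  have hd := h.hd
  have hG : g ≤ g ^ 4001 := Nat.le_self_pow (by norm_num) g
  have q0 : 0 < d - 1 := by omega
  have a1 := (Nat.le_div_iff_mul_le q0).1 (Nat.sqrt_le' ((g ^ 4001 - g) ^ 2 / (d - 1)))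
  have a2 := (Nat.div_lt_iff_lt_mul q0).1 (Nat.lt_succ_sqrt' ((g ^ 4001 - g) ^ 2 / (d - 1)))
  unfold cc
  generalize Nat.sqrt ((g ^ 4001 - g) ^ 2 / (d - 1)) = j at *
  have b1 : (j : ℝ) ^ 2 * (d - 1) ≤ ((g : ℝ) ^ 4001 - g) ^ 2 := by
    have : ((j ^ 2 * (d - 1) : ℕ) : ℝ) ≤ ((g ^ 4001 - g) ^ 2 : ℕ) := Nat.cast_le.2 a1
    rwa [Nat.cast_mul, Nat.cast_pow, Nat.cast_pow, Nat.cast_sub hG, Nat.cast_pow,
      Nat.cast_sub (by omega), Nat.cast_one] at this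
  have b2 : ((g : ℝ) ^ 4001 - g) ^ 2 ≤ (j + 1 : ℝ) ^ 2 * (d - 1) := by
    have : (((g ^ 4001 - g) ^ 2 : ℕ) : ℝ) ≤ (j.succ ^ 2 * (d - 1) : ℕ) := Nat.cast_le.2 a2.le
    rwa [Nat.cast_mul, Nat.cast_pow, Nat.cast_pow, Nat.cast_sub hG, Nat.cast_pow,
      Nat.cast_sub (by omega), Nat.cast_one, Nat.cast_succ] at this
  have hG' : (0 : ℝ) ≤ (g : ℝ) ^ 4001 - g := sub_nonneg.2 (by exact_mod_cast hG)
  rw [← Real.sq_sqrt (show (0 : ℝ) ≤ d - 1 by linarith), ← mul_pow] at b1 b2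
  have c1 := (abs_le_of_sq_le_sq' b1 hG').2
  have c2 := (abs_le_of_sq_le_sq' b2 (by positivity)).2
  have c3 : √((d : ℝ) - 1) ≤ g := Real.sqrt_le_iff.2 ⟨g0.le, by
    have : (2 * d : ℝ) ≤ g := by exact_mod_cast h.dg
    nlinarith⟩
  have e : (g : ℝ) ^ 4001 = g * g ^ 4000 := pow_succ' _ _
  have p0 := pow_pos g0 4000
  rw [e] at c1 c2 ⊢
  generalize (g : ℝ) ^ 4000 = X at *
  rw [div_mul_eq_mul_div, le_div_iff₀ (by positivity), div_le_iff₀ (by positivity),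
    show (1 - 2 / X) * (g * X) = g * X - 2 * g by field_simp,
    show (1 - 1 / X) * (g * X) = g * X - g by field_simp]
  constructor <;> linarith

theorem Reg.cc_lo : 1 - 2 / (g : ℝ) ^ 4000 ≤ cc ℝ d g * √(d - 1) := h.cc_bd.1
theorem Reg.cc_hi : cc ℝ d g * √(d - 1) ≤ 1 - 1 / (g : ℝ) ^ 4000 := h.cc_bd.2

theorem Reg.cc_pos : 0 < cc ℝ d g := by
  have h1 := h.cc_lo
  have h2 := h.xi_le
  rw [div_eq_mul_one_div 2] at h1
  exact pos_of_mul_pos_left (b := √(d - 1)) (by linarith) (Real.sqrt_nonneg _)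

theorem Reg.cc_sq : cc ℝ d g ^ 2 ≤ 1 / 2 := by
  have d3 := h.d3
  have h1 : cc ℝ d g * √(d - 1) ≤ 1 := h.cc_hi.trans (sub_le_self _ (by positivity))
  have h2 := pow_le_one₀ (n := 2) (mul_nonneg h.cc_pos.le (Real.sqrt_nonneg _)) h1
  rw [mul_pow, Real.sq_sqrt (by linarith)] at h2
  nlinarith [sq_nonneg (cc ℝ d g)]

theorem Reg.e_eq : 12 / (g : ℝ) ^ 8000 = 12 * (1 / (g : ℝ) ^ 4000) ^ 2 := by
  rw [one_div_pow, ← pow_mul, mul_one_div]

theorem Reg.k0_pos : 0 < k0 ℝ d g := add_pos_of_pos_of_nonneg h.cc_pos (by positivity)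

theorem Reg.uu_le : uu ℝ d g ≤ 2 * √(d - 1) := by
  have d3 := h.d3
  have h1 := h.cc_lo
  have h2 := h.cc_hi
  have h3 := h.xi_le
  have h4 : 0 ≤ 1 / (g : ℝ) ^ 4000 := by positivity
  rw [div_eq_mul_one_div 2] at h1
  have := uus (r := √(d - 1)) (e := 12 / (g : ℝ) ^ 8000) h.cc_pos h.cc_sq (by positivity)
    (by rw [h.e_eq]; nlinarith) (by rw [h.e_eq]; nlinarith)
  rwa [Real.sq_sqrt (by linarith), sub_add_cancel] at this

theorem Reg.init_game : Game (cc ℝ d g) (range (n * d)) (Y0 ℝ n d g) := by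
  have n0 : (n : ℝ) ≠ 0 := Nat.cast_ne_zero.2 h.n_pos.ne'
  have d3 := h.d3
  refine ⟨fun i _ j _ => by simp only [Y0_eq, eq_comm], fun i hi => ?_, fun y => ?_⟩
  · simp only [Y0_eq, sum_sub_distrib, ← mul_sum, cnt (by have := h.hd; omega) hi, sum_ite_eq,
      if_pos hi, sum_const, card_range, nsmul_eq_mul, Nat.cast_mul]
    field_simp
    ring
  · rw [qf_eq g h.n_pos]
    exact mul_nonneg h.k0_pos.le (sum_nonneg fun _ _ => sq_nonneg _)

theorem Reg.init_dom {σ : ℝ} (z : ℕ → ℝ) : Dom (cc ℝ d g) (range (n * d)) (Y0 ℝ n d g)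
    (fun i => z (i / d)) (HH σ n d g (range (n * d)) [] z) := by
  intro y
  have n0 : (n : ℝ) ≠ 0 := Nat.cast_ne_zero.2 h.n_pos.ne'
  have d3 := h.d3
  have d0 : 0 < d := by have := h.hd; omega
  have k := h.k0_pos
  have c : 0 < 1 - cc ℝ d g ^ 2 := by linarith [h.cc_sq]
  have e1 : pd (range (n * d)) y (fun i => z (i / d)) =
      ∑ v ∈ range n, (ph (n * d) d y v - (∑ i ∈ range (n * d), y i) / n) * z v := by
    simp only [pd, sum_mul_eq, sum_div_eq d0, sub_mul, sum_sub_distrib, ← mul_sum, card_range,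
      Nat.cast_mul]
    field_simp
  have e2 : pd (range (n * d)) (fun i => z (i / d)) (fun i => z (i / d)) ≤
      d * ∑ v ∈ range n, z v ^ 2 := by
    rw [pd, ← sum_div_eq d0 n fun v => z v ^ 2]
    simp only [sq]
    exact sub_le_self _ (div_nonneg (mul_self_nonneg _) (Nat.cast_nonneg _))
  have e3 : 2 * pd (range (n * d)) y (fun i => z (i / d)) ≤
      (1 - cc ℝ d g ^ 2) / k0 ℝ d g * ∑ v ∈ range n, z v ^ 2 + (k0 ℝ d g *
      ∑ v ∈ range n, (ph (n * d) d y v - (∑ i ∈ range (n * d), y i) / n) ^ 2) /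
        (1 - cc ℝ d g ^ 2) := by
    rw [e1]
    generalize (∑ i ∈ range (n * d), y i) / n = t
    rw [mul_sum, mul_sum, mul_sum, sum_div, ← sum_add_distrib]
    refine sum_le_sum fun v _ => ?_
    generalize ph (n * d) d y v - t = p
    generalize 1 - cc ℝ d g ^ 2 = a at *
    have : a / k0 ℝ d g * z v ^ 2 + k0 ℝ d g * p ^ 2 / a - 2 * (p * z v) =
        (a * z v - k0 ℝ d g * p) ^ 2 / (a * k0 ℝ d g) := by field_simp; ring
    have : 0 ≤ (a * z v - k0 ℝ d g * p) ^ 2 / (a * k0 ℝ d g) := by positivity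
    linarith
  rw [qf_eq g h.n_pos, HH, uu, card_range]
  simp only [List.map_nil, List.sum_nil, zero_add, sub_self, mul_zero, sub_zero]
  nlinarith [mul_le_mul_of_nonneg_left e2 h.cc_pos.le]

end Vale.Agent.P049
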