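import Vale.Agent.P049.Graph
import Vale.Agent.P049.FactA
import Vale.Agent.P049.Init

set_option maxRecDepth 100000

namespace Vale.Agent.P049

open Finset

namespace DomE

variable {κ : Type} [DecidableEq κ] {F : Finset κ} {Y : κ → κ → ℝ} {c : ℝ}

omit [DecidableEq κ] in
theorem qf_le (h : Game c F Y) (ht : tau2 F Y ≤ 1) (y : κ → ℝ) : qf F Y y ≤ pd F y y := by
  rcases F.eq_empty_or_nonempty with rfl | hF
  · simp [qf, pd]
  have hm : (F.card : ℝ) ≠ 0 := by exact_mod_cast hF.card_pos.ne'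
  set a := (∑ i ∈ F, y i) / F.card with ha
  have e1 : qf F Y y = ∑ p ∈ F ×ˢ F, ((y p.1 - a) * (y p.2 - a)) * Y p.1 p.2 := by
    have k1 : ∑ i ∈ F, ∑ j ∈ F, (a * a - a * y i) * Y i j = 0 :=
      sum_eq_zero fun i hi => by rw [← mul_sum, h.row i hi, mul_zero]
    have k2 : ∑ i ∈ F, ∑ j ∈ F, a * y j * Y i j = 0 := by
      rw [sum_comm]
      refine sum_eq_zero fun j hj => ?_
      rw [← mul_sum, sum_congr rfl fun i hi => h.symm i hi j hj, h.row j hj, mul_zero]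
    rw [sum_product, ← add_zero (qf F Y y), ← sub_zero (0 : ℝ)]
    nth_rewrite 1 [← k1]
    rw [← k2, qf, ← sum_sub_distrib, ← sum_add_distrib]
    refine sum_congr rfl fun i _ => ?_
    rw [← sum_sub_distrib, ← sum_add_distrib]
    exact sum_congr rfl fun j _ => by ring
  have e2 : pd F y y = ∑ i ∈ F, (y i - a) ^ 2 := by
    have : ∀ i, (y i - a) ^ 2 = y i * y i - 2 * a * y i + a ^ 2 := fun i => by ring
    simp only [this, sum_add_distrib, sum_sub_distrib, ← mul_sum, sum_const, nsmul_eq_mul, pd]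
    rw [ha]; field_simp; ring
  have e3 : ∑ p ∈ F ×ˢ F, ((y p.1 - a) * (y p.2 - a)) ^ 2 = (pd F y y) ^ 2 := by
    rw [e2, sq (∑ i ∈ F, _), sum_mul_sum, sum_product]
    exact sum_congr rfl fun i _ => sum_congr rfl fun j _ => by ring
  have e4 : ∑ p ∈ F ×ˢ F, Y p.1 p.2 ^ 2 = tau2 F Y := by rw [sum_product]; rfl
  have e5 := sum_mul_sq_le_sq_mul_sq (F ×ˢ F) (fun p => (y p.1 - a) * (y p.2 - a)) fun p => Y p.1 p.2
  rw [← e1, e3, e4] at e5
  have e6 : 0 ≤ pd F y y := by rw [e2]; exact sum_nonneg fun _ _ => sq_nonneg _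
  exact le_trans (le_abs_self _) (abs_le_of_sq_le_sq' (by nlinarith [sq_nonneg (pd F y y)]) e6 |> abs_le.2)

theorem lst (x : ℕ → ℝ) (a : ℝ) (L : List (ℕ × ℕ)) :
    (L.map fun e => 2 * x e.1 * x e.2).sum ≤ ((halves L).map fun i => x i * x i).sum ∧
      0 ≤ ((halves L).map fun i => x i * x i).sum + (L.map fun e => 2 * x e.1 * x e.2).sum -
        4 * a * ((halves L).map x).sum + 2 * a ^ 2 * (halves L).length := by
  induction L with
  | nil => simp [halves]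
  | cons e L ih =>
    simp only [GraphA.halves_cons, List.map_cons, List.sum_cons, List.length_cons, Nat.cast_add,
      Nat.cast_one]
    constructor
    · nlinarith [sq_nonneg (x e.1 - x e.2), ih.1]
    · nlinarith [sq_nonneg (x e.1 + x e.2 - 2 * a), ih.2]

end DomE

theorem dom_end {κ : Type} [DecidableEq κ] {F : Finset κ} {Y : κ → κ → ℝ} {c H : ℝ} {x : κ → ℝ}
    (hc0 : 0 ≤ c) (hc : c < 1) (h : Game c F Y) (ht : tau2 F Y ≤ 1) (hD : Dom c F Y x H) :
    (1 - c) * pd F x x ≤ H := by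
  have h1 := hD fun i => (1 - c) * x i
  have h2 := DomE.qf_le h ht fun i => (1 - c) * x i
  have e1 : pd F (fun i => (1 - c) * x i) x = (1 - c) * pd F x x := by
    simp only [pd, mul_assoc, ← mul_sum]; ring
  have e2 : pd F (fun i => (1 - c) * x i) (fun i => (1 - c) * x i) = (1 - c) ^ 2 * pd F x x := by
    have : ∀ i, (1 - c) * x i * ((1 - c) * x i) = (1 - c) ^ 2 * (x i * x i) := fun i => by ring
    simp only [pd, this, ← mul_sum]; ring
  rw [e2] at h2
  rw [e1, e2] at h1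
  have h3 : 0 < 1 - c ^ 2 := by nlinarith
  have h4 : (qf F Y (fun i => (1 - c) * x i) + c * ((1 - c) ^ 2 * pd F x x)) / (1 - c ^ 2) ≤
      (1 - c) * pd F x x := by
    rw [div_le_iff₀ h3]; nlinarith
  linarith

theorem match_le {F : Finset ℕ} {L : List (ℕ × ℕ)} (hL : (halves L).Nodup)
    (hL' : (halves L).toFinset = F) (x : ℕ → ℝ) :
    |(L.map fun e => 2 * x e.1 * x e.2).sum - (∑ i ∈ F, x i) ^ 2 / F.card| ≤ pd F x x := by
  obtain ⟨h1, h2⟩ := DomE.lst x ((∑ i ∈ F, x i) / F.card) L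
  rw [← List.sum_toFinset _ hL, hL'] at h1
  rw [← List.sum_toFinset _ hL, ← List.sum_toFinset _ hL, ← List.toFinset_card_of_nodup hL, hL'] at h2
  have e : 4 * ((∑ i ∈ F, x i) / F.card) * ∑ i ∈ F, x i -
      2 * ((∑ i ∈ F, x i) / F.card) ^ 2 * F.card = 2 * ((∑ i ∈ F, x i) ^ 2 / F.card) := by
    rcases eq_or_ne (F.card : ℝ) 0 with h | h
    · simp [h]
    · field_simp; ring
  rw [pd, ← sq, abs_le]
  constructor <;> linarith

theorem Inv.final {n d g : ℕ} (hr : Reg n d g) {F : Finset ℕ} {Y Y' : ℕ → ℕ → ℝ} {E : List (ℕ × ℕ)}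
    (h : Inv n d g F Y Y' E) (hm : F.card ≤ g ^ 3995) :
    bG (g : ℝ) d E F < (g : ℝ) ^ 9000 ∧
      ∀ L : List (ℕ × ℕ), (halves L).Nodup → (halves L).toFinset = F → ∀ z : ℕ → ℝ,
        ∑ v ∈ range n, z v = 0 →
        |((L ++ E).map fun e => 2 * z (e.1 / d) * z (e.2 / d)).sum| ≤
          2 * √(d - 1) * ∑ v ∈ range n, z v ^ 2 := by
  have hg := hr.g2
  have hg0 : (0 : ℝ) < g := by linarith
  have hb0 : 0 ≤ bG (g : ℝ) d E F := bG_nonneg hg0.le
  have hP1 := one_le_Phi hg h.zp h.zm hb0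
  have hm0 := FactA.m_pos h.zp
  have hm1 : (1 : ℝ) ≤ F.card := by exact_mod_cast (by exact_mod_cast hm0 : 0 < F.card)
  have hP : Phi g F Y Y' (bG g d E F) ≤ (g : ℝ) ^ 120000 := le_trans (by nlinarith) h.phi
  obtain ⟨b1, b2, -, b4⟩ := base_of_phi hg h.zp h.zm hb0 hP
  have hm2 : (F.card : ℝ) ^ 2 ≤ (g : ℝ) ^ 7990 := by
    calc _ ≤ ((g : ℝ) ^ 3995) ^ 2 := by gcongr; exact_mod_cast hm
      _ = _ := by rw [← pow_mul]
  have hh1 : F.card * hh (g : ℝ) F.card ≤ 1 := by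
    rw [hh, ← mul_div_assoc, div_le_one (by positivity)]; linarith
  have hc0 := hr.cc_pos.le
  have hc : cc ℝ d g < 1 := by have := hr.cc_sq; nlinarith
  refine ⟨?_, fun L hL hL' z hz => ?_⟩
  · calc _ ≤ (g : ℝ) ^ 10 * (g : ℝ) ^ 7990 := b4.trans (by gcongr)
      _ = (g : ℝ) ^ 8000 := by rw [← pow_add]
      _ < _ := pow_lt_pow_right₀ (lt_of_lt_of_le (by norm_num) hr.g1) (by norm_num)
  have k1 := dom_end hc0 hc h.gp (b1.t2h.trans hh1) (h.dp z)
  have k2 := dom_end hc0 hc h.gm (b2.t2h.trans hh1) (h.dm z)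
  have k3 := abs_le.1 (match_le hL hL' fun i => z (i / d))
  have k4 : uu ℝ d g * ∑ v ∈ range n, z v ^ 2 ≤ 2 * √(d - 1) * ∑ v ∈ range n, z v ^ 2 :=
    mul_le_mul_of_nonneg_right hr.uu_le (sum_nonneg fun _ _ => sq_nonneg _)
  rw [HH, Init.sum_div_eq (by have := hr.hd; omega), hz] at k1 k2
  rw [List.map_append, List.sum_append, abs_le]
  simp only [mul_zero, ne_eq, OfNat.ofNat_ne_zero, not_false_eq_true, zero_pow, zero_div] at k1 k2
  constructor <;> linarith [k3.1, k3.2]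

end Vale.Agent.P049
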