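import Vale.Agent.P049.D
import Vale.Agent.P337.TCx

/-! P049: half-edge combinatorics, the initial state, the invariant and the algorithm. -/

namespace Vale.Agent.P049

open Finset Vale.Agent.Common.TreeTM Vale.Agent.P337

/-- Adjacency of vertices; the half-edge `i` sits at the vertex `i / d`. -/
def adjV (d : ℕ) (E : List (ℕ × ℕ)) (u v : ℕ) : Bool :=
  E.any fun e => (neq (e.1 / d) u && neq (e.2 / d) v) || (neq (e.1 / d) v && neq (e.2 / d) u)
def badB (d : ℕ) (E : List (ℕ × ℕ)) (i j : ℕ) : Bool := neq (i / d) (j / d) || adjV d E (i / d) (j / d)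
def halves (E : List (ℕ × ℕ)) : List ℕ := E.flatMap fun e => [e.1, e.2]

/-- `E` is a perfect matching of the half-edges outside `F`, without loops or repeated edges. -/
structure Mt (N d : ℕ) (F : Finset ℕ) (E : List (ℕ × ℕ)) : Prop where
  sub : F ⊆ range N
  nodup : (halves E).Nodup
  cover : (halves E).toFinset = range N \ F
  loop : ∀ e ∈ E, e.1 / d ≠ e.2 / d
  simple : E.Pairwise fun e e' =>
    ¬ ((e.1 / d = e'.1 / d ∧ e.2 / d = e'.2 / d) ∨ (e.1 / d = e'.2 / d ∧ e.2 / d = e'.1 / d))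

section gen

variable {K : Type} [Field K]

/-- Free half-edges at the same vertex, and at adjacent vertices. -/
def c1 (K : Type) [Field K] (d : ℕ) (F : Finset ℕ) (i : ℕ) : K :=
  ∑ j ∈ F, bif !neq j i && neq (j / d) (i / d) then 1 else 0
def c2 (K : Type) [Field K] (d : ℕ) (E : List (ℕ × ℕ)) (F : Finset ℕ) (i : ℕ) : K :=
  ∑ j ∈ F, bif adjV d E (i / d) (j / d) then 1 else 0
def bG (g : K) (d : ℕ) (E : List (ℕ × ℕ)) (F : Finset ℕ) : K := bh g F (c1 K d F) (c2 K d E F)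

def cc (K : Type) [Field K] (d g : ℕ) : K :=
  (Nat.sqrt ((g ^ 4001 - g) ^ 2 / (d - 1)) : K) / (g : K) ^ 4001
def k0 (K : Type) [Field K] (d g : ℕ) : K := cc K d g + 12 / (g : K) ^ 8000
def uu (K : Type) [Field K] (d g : ℕ) : K := cc K d g * d + (1 - cc K d g ^ 2) / k0 K d g
def Y0 (K : Type) [Field K] (n d g i j : ℕ) : K :=
  k0 K d g * ((bif neq (i / d) (j / d) then 1 else 0) - 1 / n) -
    cc K d g * ((bif neq i j then 1 else 0) - 1 / ((n * d : ℕ) : K))

end gen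

/-- The quadratic form dominated in the game of sign `σ`. -/
noncomputable def HH (σ : ℝ) (n d g : ℕ) (F : Finset ℕ) (E : List (ℕ × ℕ)) (z : ℕ → ℝ) : ℝ :=
  uu ℝ d g * ∑ v ∈ range n, z v ^ 2 -
    σ * ((E.map fun e => 2 * z (e.1 / d) * z (e.2 / d)).sum + (∑ i ∈ F, z (i / d)) ^ 2 / F.card -
      (∑ i ∈ range (n * d), z (i / d)) ^ 2 / ((n * d : ℕ) : ℝ)) -
    cc ℝ d g * pd F (fun i => z (i / d)) fun i => z (i / d)

/-- The parameter regime. -/
structure Reg (n d g : ℕ) : Prop where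
  hd : 3 ≤ d
  hg : 10 ^ 30 ≤ g
  dg : 2 * d ≤ g
  lo : g ^ 12000 ≤ n
  hi : n ≤ 2 * g ^ 12000

/-- The invariant of the process. -/
structure Inv (n d g : ℕ) (F : Finset ℕ) (Y Y' : ℕ → ℕ → ℝ) (E : List (ℕ × ℕ)) : Prop where
  mt : Mt (n * d) d F E
  gp : Game (cc ℝ d g) F Y
  gm : Game (cc ℝ d g) F Y'
  zp : 0 < zz F Y
  zm : 0 < zz F Y'
  dp : ∀ z : ℕ → ℝ, Dom (cc ℝ d g) F Y (fun i => z (i / d)) (HH 1 n d g F E z)
  dm : ∀ z : ℕ → ℝ, Dom (cc ℝ d g) F Y' (fun i => z (i / d)) (HH (-1) n d g F E z)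
  phi : F.card * Phi g F Y Y' (bG g d E F) ≤ (g : ℝ) ^ 120000

section test

variable {K : Type} [Field K] [LinearOrder K] [IsStrictOrderedRing K] [FloorRing K]

/-- The next matrix. -/
def nx (g : ℕ) (F : Finset ℕ) (σ : K) (Y : ℕ → ℕ → K) (α β : ℕ) : ℕ → ℕ → K :=
  rnd (g ^ 200000) (rem F α β) (upd F σ Y α β)

/-- The acceptance test for a state. -/
def Good (d g : ℕ) (F : Finset ℕ) (Y Y' : ℕ → ℕ → K) (E : List (ℕ × ℕ)) : Prop :=
  1 ≤ F.card * zz F Y ∧ 1 ≤ F.card * zz F Y' ∧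
    F.card * phiH (g ^ 200000) (g : K) F Y Y' (bG (g : K) d E F) ≤ (g : K) ^ 120000

/-- The acceptance test for a pair. -/
def Test (d g : ℕ) (F : Finset ℕ) (Y Y' : ℕ → ℕ → K) (E : List (ℕ × ℕ)) (α β : ℕ) : Prop :=
  α ∈ F ∧ β ∈ F ∧ badB d E α β = false ∧ 0 < dl F 1 Y α β ∧ 0 < dl F (-1) Y' α β ∧
    Good d g (rem F α β) (nx g F 1 Y α β) (nx g F (-1) Y' α β) ((α, β) :: E)

instance (d g : ℕ) (F : Finset ℕ) (Y Y' : ℕ → ℕ → K) (E : List (ℕ × ℕ)) (α β : ℕ) :
    Decidable (Test d g F Y Y' E α β) := by unfold Test Good; infer_instance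

end test

/-! ### The algorithm -/

def FF (b : List Bool) : Finset ℕ := (range b.length).filter fun i => b.getD i false = true
def mat (L : List (List ℚ)) (i j : ℕ) : ℚ := (L.getD i []).getD j 0
def tab (b : List Bool) (Y : ℕ → ℕ → ℚ) : List (List ℚ) := (idx b).map fun i => (idx b).map fun j => Y i j
def off (b : List Bool) (α β : ℕ) : List Bool :=
  (idx b).map fun i => b.getD i false && (!neq i α && !neq i β)

/-- Free flags, the two matrices, the matched pairs. -/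
abbrev St : Type := List Bool × List (List ℚ) × List (List ℚ) × List (ℕ × ℕ)

def nxt (g : ℕ) (s : St) (e : ℕ × ℕ) : St :=
  (off s.1 e.1 e.2, tab s.1 (nx g (FF s.1) 1 (mat s.2.1) e.1 e.2),
    tab s.1 (nx g (FF s.1) (-1) (mat s.2.2.1) e.1 e.2), e :: s.2.2.2)
def tst (d g : ℕ) (s : St) (e : ℕ × ℕ) : Bool :=
  decide (Test d g (FF s.1) (mat s.2.1) (mat s.2.2.1) s.2.2.2 e.1 e.2)
def cands (d g : ℕ) (s : St) : List (ℕ × ℕ) :=
  ((idx s.1).flatMap fun α => (idx s.1).map fun β => (α, β)).filter (tst d g s)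
def stp (d g : ℕ) (s : St) : St :=
  bif nlt (g ^ 3995) (FF s.1).card && isCons (cands d g s) then nxt g s ((cands d g s).headD (0, 0))
  else s
/-- The integer part of the `12000`-th root of the length. -/
def gOf (w : List Bool) : ℕ := (idx w).countP fun j => !nlt w.length ((j + 1) ^ 12000)
def b0 (d : ℕ) (w : List Bool) : List Bool := w.flatMap fun _ => List.replicate d true
def st0 (d : ℕ) (w : List Bool) : St :=
  (b0 d w, tab (b0 d w) (Y0 ℚ w.length d (gOf w)), tab (b0 d w) (Y0 ℚ w.length d (gOf w)), [])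
def run (d : ℕ) (w : List Bool) : St := (b0 d w).foldl (fun s _ => stp d (gOf w) s) (st0 d w)
def prs (l : List ℕ) : List (ℕ × ℕ) :=
  (idx l).flatMap fun i => bif neq (i % 2) 0 then [(l.getD i 0, l.getD (i + 1) 0)] else []
def edges (s : St) : List (ℕ × ℕ) := prs ((idx s.1).filter fun i => s.1.getD i false) ++ s.2.2.2
def alg (d : ℕ) (w : List Bool) : List Bool :=
  (idx w).flatMap fun u => (idx w).map fun v => adjV d (edges (run d w)) u v

end Vale.Agent.P049
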