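import Vale.Agent.P049.G

namespace Vale.Agent.P049

open Finset Vale.Agent.P337

variable {N d : ℕ} {F : Finset ℕ} {E : List (ℕ × ℕ)} {α β : ℕ}

namespace GraphA

theorem adj_iff {u v : ℕ} : adjV d E u v = true ↔
    ∃ e ∈ E, (e.1 / d = u ∧ e.2 / d = v) ∨ (e.1 / d = v ∧ e.2 / d = u) := by
  simp [adjV, neq]

theorem adj_symm (d : ℕ) (E : List (ℕ × ℕ)) (u v : ℕ) : adjV d E u v = adjV d E v u := by
  simp only [adjV, Bool.or_comm]

theorem bad_iff : badB d E α β = false ↔ α / d ≠ β / d ∧ adjV d E (α / d) (β / d) = false := by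
  simp [badB, neq]

theorem mem_halves {x : ℕ} : x ∈ halves E ↔ ∃ e ∈ E, x = e.1 ∨ x = e.2 := by
  simp only [halves, List.mem_flatMap, List.mem_cons, List.not_mem_nil, or_false]

theorem halves_cons (e : ℕ × ℕ) (E : List (ℕ × ℕ)) : halves (e :: E) = e.1 :: e.2 :: halves E := rfl

theorem length_halves (E : List (ℕ × ℕ)) : (halves E).length = 2 * E.length := by
  induction E with
  | nil => rfl
  | cons e E ih => rw [halves_cons, List.length_cons, List.length_cons, ih, List.length_cons]; ring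

theorem partner (h : (halves E).Nodup) : ∃ π : ℕ → ℕ, ∀ e ∈ E, π e.1 = e.2 ∧ π e.2 = e.1 := by
  induction E with
  | nil => exact ⟨id, by simp⟩
  | cons e E ih =>
    rw [halves_cons, List.nodup_cons, List.nodup_cons, List.mem_cons, not_or] at h
    obtain ⟨π, hπ⟩ := ih h.2.2
    refine ⟨fun x => if x = e.1 then e.2 else if x = e.2 then e.1 else π x, fun e' he' => ?_⟩
    rcases List.mem_cons.1 he' with rfl | he'
    · simp [Ne.symm h.1.1]
    · have a1 : e'.1 ∈ halves E := mem_halves.2 ⟨e', he', .inl rfl⟩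
      have a2 : e'.2 ∈ halves E := mem_halves.2 ⟨e', he', .inr rfl⟩
      simp only
      have b1 : e'.1 ≠ e.1 := fun a => h.1.2 (a ▸ a1)
      have b2 : e'.1 ≠ e.2 := fun a => h.2.1 (a ▸ a1)
      have b3 : e'.2 ≠ e.1 := fun a => h.1.2 (a ▸ a2)
      have b4 : e'.2 ≠ e.2 := fun a => h.2.1 (a ▸ a2)
      rw [if_neg b1, if_neg b2, if_neg b3, if_neg b4]
      exact hπ e' he'

theorem mem_fib (hd : 0 < d) {x u : ℕ} : x ∈ Ico (u * d) (u * d + d) ↔ x / d = u := by
  rw [mem_Ico, Nat.div_eq_iff hd]; omega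

theorem sum_rem' (hα : α ∈ F) (hβ : β ∈ F) (hne : α ≠ β) (u : ℕ → ℝ) :
    ∑ i ∈ rem F α β, u i = ∑ i ∈ F, u i - u α - u β := by
  rw [rem, ← add_sum_erase _ _ hα, ← add_sum_erase (F.erase α) _ (mem_erase.2 ⟨hne.symm, hβ⟩)]
  ring

theorem sum2_rem (hα : α ∈ F) (hβ : β ∈ F) (hne : α ≠ β) (φ : ℕ → ℕ → ℝ)
    (hs : ∀ i j, φ i j = φ j i) (h1 : φ α α = 0) (h2 : φ β β = 0) (h3 : φ α β = 0) :
    ∑ i ∈ rem F α β, ∑ j ∈ rem F α β, φ i j =
      ∑ i ∈ F, ∑ j ∈ F, φ i j - 2 * ∑ j ∈ F, φ α j - 2 * ∑ j ∈ F, φ β j := by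
  have e : ∀ k, ∑ i ∈ F, φ i k = ∑ j ∈ F, φ k j := fun k => sum_congr rfl fun i _ => hs i k
  simp only [sum_rem' hα hβ hne, sum_sub_distrib]
  rw [e α, e β, hs β α, h1, h2, h3]
  ring

theorem cond_nonneg (b : Bool) : (0 : ℝ) ≤ bif b then 1 else 0 := by cases b <;> simp

theorem no_loop (h : Mt N d F E) (u : ℕ) : adjV d E u u = false := by
  rw [← Bool.not_eq_true, adj_iff]
  rintro ⟨e, he, a | a⟩ <;> exact h.loop e he (a.1.trans a.2.symm)

end GraphA

open GraphA

theorem c1_nonneg (d : ℕ) (F : Finset ℕ) (i : ℕ) : 0 ≤ c1 ℝ d F i :=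
  sum_nonneg fun _ _ => cond_nonneg _
theorem c2_nonneg (d : ℕ) (E : List (ℕ × ℕ)) (F : Finset ℕ) (i : ℕ) : 0 ≤ c2 ℝ d E F i :=
  sum_nonneg fun _ _ => cond_nonneg _
theorem bG_nonneg {g : ℝ} (hg : 0 ≤ g) : 0 ≤ bG g d E F :=
  add_nonneg (mul_nonneg (pow_nonneg hg _) (sum_nonneg fun i _ => c1_nonneg d F i))
    (mul_nonneg (pow_nonneg hg _) (sum_nonneg fun i _ => c2_nonneg d E F i))
theorem badB_ne (h : badB d E α β = false) : α ≠ β := fun e => (bad_iff.1 h).1 (by rw [e])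

theorem Mt.not_mem (h : Mt N d F E) {x : ℕ} (hx : x ∈ F) : x ∉ halves E := fun a => by
  have := List.mem_toFinset.2 a
  rw [h.cover] at this
  exact (mem_sdiff.1 this).2 hx

theorem Mt.step (h : Mt N d F E) (hα : α ∈ F) (hβ : β ∈ F) (hb : badB d E α β = false) :
    Mt N d (rem F α β) ((α, β) :: E) := by
  have hne := badB_ne hb
  refine ⟨((erase_subset _ _).trans (erase_subset _ _)).trans h.sub, ?_, ?_, ?_, ?_⟩
  · rw [halves_cons, List.nodup_cons, List.nodup_cons, List.mem_cons, not_or]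
    exact ⟨⟨hne, h.not_mem hα⟩, h.not_mem hβ, h.nodup⟩
  · rw [halves_cons, List.toFinset_cons, List.toFinset_cons, h.cover]
    have a1 := h.sub hα
    have a2 := h.sub hβ
    ext x
    simp only [mem_insert, mem_sdiff, rem, mem_erase]
    by_cases b1 : x = α
    · subst b1; simp [a1]
    · by_cases b2 : x = β
      · subst b2; simp [a2]
      · simp [b1, b2]
  · intro e he
    rcases List.mem_cons.1 he with rfl | he
    · exact (bad_iff.1 hb).1
    · exact h.loop e he
  · refine List.pairwise_cons.2 ⟨fun e he a => ?_, h.simple⟩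
    have := (bad_iff.1 hb).2
    rw [← Bool.not_eq_true, adj_iff] at this
    refine this ⟨e, he, ?_⟩
    rcases a with a | a
    · exact .inl ⟨a.1.symm, a.2.symm⟩
    · exact .inr ⟨a.2.symm, a.1.symm⟩

theorem Mt.card (h : Mt N d F E) : F.card + 2 * E.length = N := by
  rw [← length_halves, ← List.toFinset_card_of_nodup h.nodup, h.cover, add_comm,
    card_sdiff_add_card_eq_card h.sub, card_range]

theorem Mt.badOk (h : Mt N d F E) (hd : 0 < d) {g : ℝ} (hg : (d : ℝ) ≤ g) : BadOk g F (badB d E) := by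
  refine ⟨fun i j => ?_, fun i => by simp [badB, neq], fun i _ => ?_⟩
  · simp only [badB, neq, adj_symm d E (i / d), eq_comm (a := i / d)]
  · obtain ⟨π, hπ⟩ := partner h.nodup
    set u := i / d with hu
    have a1 : (F.filter fun j => badB d E i j = true) ⊆
        (insert u ((Ico (u * d) (u * d + d)).image fun x => π x / d)).biUnion
          fun v => Ico (v * d) (v * d + d) := by
      intro j hj
      refine mem_biUnion.2 ⟨j / d, ?_, (mem_fib hd).2 rfl⟩
      have := (mem_filter.1 hj).2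
      simp only [badB, neq, Bool.or_eq_true, decide_eq_true_eq, adj_iff] at this
      rcases this with a | ⟨e, he, a | a⟩
      · exact mem_insert.2 (.inl a.symm)
      · exact mem_insert_of_mem (mem_image.2 ⟨e.1, (mem_fib hd).2 a.1, by rw [(hπ e he).1, a.2]⟩)
      · exact mem_insert_of_mem (mem_image.2 ⟨e.2, (mem_fib hd).2 a.2, by rw [(hπ e he).2, a.1]⟩)
    have a2 : (F.filter fun j => badB d E i j = true).card ≤ (d + 1) * d := by
      refine (card_le_card a1).trans ((card_biUnion_le_card_mul _ _ d fun v _ => by simp).trans ?_)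
      refine Nat.mul_le_mul_right _ ((card_insert_le _ _).trans (Nat.succ_le_succ ?_))
      exact card_image_le.trans (by simp)
    have a3 : ((F.filter fun j => badB d E i j = true).card : ℝ) ≤ (d + 1) * d := by
      exact_mod_cast a2
    have a4 : (1 : ℝ) ≤ d := by exact_mod_cast hd
    nlinarith

theorem Mt.bG_step (h : Mt N d F E) {g : ℝ} (hg : 0 ≤ g) (hα : α ∈ F) (hβ : β ∈ F)
    (hb : badB d E α β = false) :
    bG g d ((α, β) :: E) (rem F α β) ≤ bhN g F (c1 ℝ d F) (c2 ℝ d E F) α β := by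
  have hne := badB_ne hb
  obtain ⟨b1, b2⟩ := bad_iff.1 hb
  have a1 : ∑ i ∈ rem F α β, c1 ℝ d (rem F α β) i =
      ∑ i ∈ F, c1 ℝ d F i - 2 * c1 ℝ d F α - 2 * c1 ℝ d F β :=
    sum2_rem hα hβ hne (fun i j => bif !neq j i && neq (j / d) (i / d) then 1 else 0)
      (fun i j => by simp only [neq, eq_comm (a := i), eq_comm (a := i / d)])
      (by simp [neq]) (by simp [neq]) (by simp [neq, b1.symm])
  have a2 : ∑ i ∈ rem F α β, c2 ℝ d E (rem F α β) i =
      ∑ i ∈ F, c2 ℝ d E F i - 2 * c2 ℝ d E F α - 2 * c2 ℝ d E F β :=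
    sum2_rem hα hβ hne (fun i j => bif adjV d E (i / d) (j / d) then 1 else 0)
      (fun i j => by rw [adj_symm]) (by simp [no_loop h]) (by simp [no_loop h]) (by simp [b2])
  have a3 : ∀ γ, γ ∉ rem F α β →
      ∑ i ∈ rem F α β, (bif neq (i / d) (γ / d) then (1 : ℝ) else 0) ≤ c1 ℝ d F γ := fun γ hγ => by
    refine le_trans (le_of_eq (sum_congr rfl fun i hi => ?_)) (sum_le_sum_of_subset_of_nonneg
      ((erase_subset _ _).trans (erase_subset _ _)) fun _ _ _ => cond_nonneg _)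
    have : i ≠ γ := fun e => hγ (e ▸ hi)
    simp [neq, this]
  have a4 := a3 α (by simp [rem])
  have a5 := a3 β (by simp [rem])
  set A := ∑ i ∈ rem F α β, (bif neq (i / d) (α / d) then (1 : ℝ) else 0) with hA
  set B := ∑ i ∈ rem F α β, (bif neq (i / d) (β / d) then (1 : ℝ) else 0) with hB
  have a6 : ∑ i ∈ rem F α β, c2 ℝ d ((α, β) :: E) (rem F α β) i ≤
      ∑ i ∈ rem F α β, c2 ℝ d E (rem F α β) i + (A * B + B * A) := by
    simp only [hA, hB, sum_mul_sum, c2, ← sum_add_distrib]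
    refine sum_le_sum fun i _ => sum_le_sum fun j _ => ?_
    have e : adjV d ((α, β) :: E) (i / d) (j / d) = ((neq (i / d) (α / d) && neq (j / d) (β / d) ||
        neq (i / d) (β / d) && neq (j / d) (α / d)) || adjV d E (i / d) (j / d)) := by
      simp only [adjV, List.any_cons, neq, eq_comm (a := α / d), eq_comm (a := β / d),
        Bool.and_comm (decide (j / d = α / d))]
    rw [e]
    cases neq (i / d) (α / d) <;> cases neq (j / d) (β / d) <;> cases neq (i / d) (β / d) <;>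
      cases neq (j / d) (α / d) <;> cases adjV d E (i / d) (j / d) <;> norm_num
  have a7 : A * B ≤ c1 ℝ d F α * c1 ℝ d F β :=
    mul_le_mul a4 a5 (sum_nonneg fun _ _ => cond_nonneg _) (c1_nonneg _ _ _)
  have a8 := mul_le_mul_of_nonneg_left (a := g ^ 9000) (show ∑ i ∈ rem F α β,
    c2 ℝ d ((α, β) :: E) (rem F α β) i ≤ ∑ i ∈ F, c2 ℝ d E F i + (2 * c1 ℝ d F α * c1 ℝ d F β -
      2 * c2 ℝ d E F α - 2 * c2 ℝ d E F β) by linarith) (pow_nonneg hg _)
  rw [bG, bhN, bh, bh, a1]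
  generalize g ^ 9000 = x at *
  generalize g ^ 11980 = y at *
  linarith

/-- With no bad pair left, any perfect matching of the free half-edges completes the graph. -/
theorem Mt.finish (h : Mt N d F E) {g : ℝ} (hg : 1 ≤ g) (hb : bG g d E F < g ^ 9000)
    {L : List (ℕ × ℕ)} (hL : (halves L).Nodup) (hL' : (halves L).toFinset = F) :
    Mt N d ∅ (L ++ E) := by
  have g1 : 0 < g ^ 9000 := pow_pos (by linarith) _
  have g2 : g ^ 9000 ≤ g ^ 11980 := pow_le_pow_right₀ hg (by norm_num)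
  have s1 : 0 ≤ ∑ i ∈ F, c1 ℝ d F i := sum_nonneg fun i _ => c1_nonneg d F i
  have s2 : 0 ≤ ∑ i ∈ F, c2 ℝ d E F i := sum_nonneg fun i _ => c2_nonneg d E F i
  rw [bG, bh] at hb
  generalize g ^ 9000 = x at *
  generalize g ^ 11980 = y at *
  have key : ∀ φ : ℕ → ℕ → Bool, ∑ i ∈ F, ∑ j ∈ F, (bif φ i j then (1 : ℝ) else 0) < 1 →
      ∀ i ∈ F, ∀ j ∈ F, φ i j = false := fun φ hφ i hi j hj => by
    have b1 := single_le_sum (f := fun i => ∑ j ∈ F, (bif φ i j then (1 : ℝ) else 0))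
      (fun _ _ => sum_nonneg fun _ _ => cond_nonneg _) hi
    have b2 := single_le_sum (f := fun j => (bif φ i j then (1 : ℝ) else 0))
      (fun _ _ => cond_nonneg _) hj
    rw [← Bool.not_eq_true]
    intro e
    simp only [e, cond_true] at b2
    linarith
  have k1 := key (fun i j => !neq j i && neq (j / d) (i / d))
    (show ∑ i ∈ F, c1 ℝ d F i < 1 by nlinarith)
  have k2 := key (fun i j => adjV d E (i / d) (j / d))
    (show ∑ i ∈ F, c2 ℝ d E F i < 1 by nlinarith)
  have k3 : ∀ i ∈ F, ∀ j ∈ F, j ≠ i → j / d ≠ i / d := fun i hi j hj e => by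
    simpa [neq, e] using k1 i hi j hj
  have m1 : ∀ e ∈ L, e.1 ∈ F ∧ e.2 ∈ F := fun e he =>
    ⟨hL' ▸ List.mem_toFinset.2 (mem_halves.2 ⟨e, he, .inl rfl⟩),
      hL' ▸ List.mem_toFinset.2 (mem_halves.2 ⟨e, he, .inr rfl⟩)⟩
  have e0 : halves (L ++ E) = halves L ++ halves E := List.flatMap_append
  obtain ⟨n1, n2⟩ := List.nodup_flatMap.1 hL
  refine ⟨empty_subset _, ?_, ?_, fun e he => ?_, List.pairwise_append.2 ⟨?_, h.simple, ?_⟩⟩
  · rw [e0]
    exact hL.append h.nodup fun x a => h.not_mem (hL' ▸ List.mem_toFinset.2 a)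
  · rw [e0, List.toFinset_append, hL', h.cover, union_sdiff_of_subset h.sub, sdiff_empty]
  · rcases List.mem_append.1 he with he | he
    · exact k3 _ (m1 e he).2 _ (m1 e he).1 (by simpa using n1 e he)
    · exact h.loop e he
  · refine n2.imp_of_mem fun {e e'} he he' a b => ?_
    rcases b with b | b
    · exact k3 _ (m1 e' he').1 _ (m1 e he).1 (fun c => a (a := e.1) (by simp) (by simp [c])) b.1
    · exact k3 _ (m1 e' he').2 _ (m1 e he).1 (fun c => a (a := e.1) (by simp) (by simp [c])) b.1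
  · intro e he e' he' a
    have := k2 _ (m1 e he).1 _ (m1 e he).2
    rw [← Bool.not_eq_true, adj_iff] at this
    refine this ⟨e', he', ?_⟩
    rcases a with a | a
    · exact .inl ⟨a.1.symm, a.2.symm⟩
    · exact .inr ⟨a.2.symm, a.1.symm⟩

end Vale.Agent.P049
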