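import Vale.Agent.P049.Graph

namespace Vale.Agent.P049

open Finset

open Vale.Agent.Common.TreeTM Vale.Agent.P337 GraphA

namespace GraphB

theorem prs_cons (a b : ℕ) (l : List ℕ) : prs (a :: b :: l) = (a, b) :: prs l := by
  simp only [prs, idx, List.length_cons, List.range_succ_eq_map, List.flatMap_cons, List.map_cons,
    List.flatMap_map, List.map_map]
  have : ∀ i : ℕ, (i + 1 + 1) % 2 = i % 2 := fun i => by omega
  simp [neq, this]

theorem sum_adj {n d : ℕ} (φ : ℕ → ℕ → ℝ) (E : List (ℕ × ℕ))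
    (h1 : ∀ e ∈ E, e.1 / d < n ∧ e.2 / d < n ∧ e.1 / d ≠ e.2 / d)
    (h2 : E.Pairwise fun e e' =>
      ¬ ((e.1 / d = e'.1 / d ∧ e.2 / d = e'.2 / d) ∨ (e.1 / d = e'.2 / d ∧ e.2 / d = e'.1 / d))) :
    ∑ u ∈ range n, ∑ v ∈ range n, (if adjV d E u v = true then φ u v else 0) =
      (E.map fun e => φ (e.1 / d) (e.2 / d) + φ (e.2 / d) (e.1 / d)).sum := by
  induction E with
  | nil => simp [adjV]
  | cons e E ih =>
    obtain ⟨a1, a2⟩ := List.pairwise_cons.1 h2
    obtain ⟨b1, b2, b3⟩ := h1 e List.mem_cons_self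
    rw [List.map_cons, List.sum_cons, ← ih (fun e' he' => h1 e' (List.mem_cons_of_mem _ he')) a2]
    have n1 : adjV d E (e.1 / d) (e.2 / d) = false := by
      rw [← Bool.not_eq_true, adj_iff]
      rintro ⟨e', he', c | c⟩
      · exact a1 e' he' (.inl ⟨c.1.symm, c.2.symm⟩)
      · exact a1 e' he' (.inr ⟨c.2.symm, c.1.symm⟩)
    have n2 : adjV d E (e.2 / d) (e.1 / d) = false := by rw [adj_symm, n1]
    have key : ∀ u v, (if adjV d (e :: E) u v = true then φ u v else 0) =
        (if e.2 / d = v then (if e.1 / d = u then φ u v else 0) else 0) +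
        (if e.1 / d = v then (if e.2 / d = u then φ u v else 0) else 0) +
        (if adjV d E u v = true then φ u v else 0) := by
      intro u v
      have e0 : adjV d (e :: E) u v = ((neq (e.1 / d) u && neq (e.2 / d) v ||
        neq (e.1 / d) v && neq (e.2 / d) u) || adjV d E u v) := List.any_cons
      rw [e0]
      by_cases c1 : e.1 / d = u ∧ e.2 / d = v
      · obtain ⟨rfl, rfl⟩ := c1
        simp [neq, n1, b3]
      · by_cases c2 : e.1 / d = v ∧ e.2 / d = u
        · obtain ⟨rfl, rfl⟩ := c2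
          simp [neq, n2, b3.symm]
        · have d1 : (neq (e.1 / d) u && neq (e.2 / d) v) = false := by simpa [neq] using c1
          have d2 : (neq (e.1 / d) v && neq (e.2 / d) u) = false := by simpa [neq] using c2
          rw [d1, d2, ← ite_and, ← ite_and, if_neg (fun c => c1 (And.symm c)), if_neg c2]
          simp
    simp only [key, sum_add_distrib, sum_ite_eq, mem_range, b1, b2, if_true]

theorem sum_halves (ψ : ℕ → ℝ) (E : List (ℕ × ℕ)) :
    ((halves E).map ψ).sum = (E.map fun e => ψ e.1 + ψ e.2).sum := by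
  induction E with
  | nil => rfl
  | cons e E ih => simp only [halves_cons, List.map_cons, List.sum_cons, ih, add_assoc]

theorem root (k n : ℕ) (hk : k ≠ 0) : ∃ g, (List.range n).countP (fun j => !nlt n ((j + 1) ^ k)) = g ∧
    g ^ k ≤ n ∧ n < (g + 1) ^ k := by
  have hex : ∃ g, n < (g + 1) ^ k := ⟨n, (Nat.lt_succ_self n).trans_le (Nat.le_self_pow hk _)⟩
  have h1 := Nat.find_spec hex
  have h2 : ∀ j, j < Nat.find hex → (j + 1) ^ k ≤ n := fun j hj => not_lt.1 (Nat.find_min hex hj)
  have h3 : Nat.find hex ≤ n :=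
    Nat.find_min' hex ((Nat.lt_succ_self n).trans_le (Nat.le_self_pow hk _))
  generalize Nat.find hex = g at *
  refine ⟨g, ?_, ?_, h1⟩
  · have e : ∀ j, (!nlt n ((j + 1) ^ k)) = decide (j < g) := fun j => by
      rw [nlt, ← decide_not, decide_eq_decide, not_lt]
      exact ⟨fun a => not_le.1 fun b => (h1.trans_le (Nat.pow_le_pow_left (by omega) k)).not_ge a,
        h2 j⟩
    simp only [e]
    obtain ⟨m, rfl⟩ := Nat.exists_eq_add_of_le h3
    rw [List.range_add, List.countP_append, List.countP_eq_length.2 (by simp),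
      List.countP_eq_zero.2 (by simp), List.length_range, add_zero]
  · rcases g with _ | g
    · rw [zero_pow hk]; exact Nat.zero_le _
    · exact h2 g (Nat.lt_succ_self g)

theorem succ_pow {g k : ℕ} (h : 2 * k ≤ g) : (g + 1) ^ k ≤ 2 * g ^ k := by
  have g0 : (0 : ℝ) < g + 1 := by positivity
  have h' : (2 : ℝ) * k ≤ g := by exact_mod_cast h
  have a1 := one_add_mul_le_pow (a := -(1 / (g + 1 : ℝ))) (by
    have : 1 / (g + 1 : ℝ) ≤ 1 := by rw [div_le_one g0]; linarith [Nat.cast_nonneg (α := ℝ) g]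
    linarith) k
  have a2 : 1 + -(1 / (g + 1 : ℝ)) = g / (g + 1) := by field_simp; ring
  have a3 : (k : ℝ) * (1 / (g + 1)) ≤ 1 / 2 := by
    rw [mul_one_div, div_le_iff₀ g0]; linarith
  rw [a2, div_pow, le_div_iff₀ (by positivity)] at a1
  have a4 : (g + 1 : ℝ) ^ k ≤ 2 * g ^ k := by
    nlinarith [pow_pos g0 k]
  exact_mod_cast a4

end GraphB

open GraphB

theorem halves_prs {l : List ℕ} (h : Even l.length) : halves (prs l) = l := by
  induction l using List.twoStepInduction with
  | nil => rfl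
  | singleton a => simp at h
  | cons_cons a b l ih _ =>
    rw [prs_cons, halves_cons, ih]
    simpa [Nat.even_add_one] using h

/-- The graph of a complete matching. -/
theorem Mt.graph {n d : ℕ} {E : List (ℕ × ℕ)} (hd : 0 < d) (h : Mt (n * d) d ∅ E) :
    ∃ G : SimpleGraph (Fin n), (∀ u v : Fin n, G.Adj u v ↔ adjV d E u v = true) ∧
      (∀ u : Fin n, (univ.filter fun v : Fin n => adjV d E u v = true).card = d) ∧
      ∀ z : ℕ → ℝ, ∑ u : Fin n, ∑ v : Fin n, (if adjV d E u v = true then z u * z v else 0) =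
        (E.map fun e => 2 * z (e.1 / d) * z (e.2 / d)).sum := by
  have hc := h.cover
  rw [sdiff_empty] at hc
  have lt : ∀ x ∈ halves E, x / d < n := fun x hx => by
    have := List.mem_toFinset.2 hx
    rw [hc, mem_range] at this
    exact (Nat.div_lt_iff_lt_mul hd).2 this
  have key := fun φ => sum_adj (n := n) (d := d) φ E (fun e he =>
    ⟨lt _ (mem_halves.2 ⟨e, he, .inl rfl⟩), lt _ (mem_halves.2 ⟨e, he, .inr rfl⟩), h.loop e he⟩)
    h.simple
  refine ⟨⟨fun u v => adjV d E u v = true, ⟨fun u v a => by rwa [adj_symm]⟩,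
    ⟨fun u => by simp [no_loop h]⟩⟩, fun _ _ => Iff.rfl, fun u => ?_, fun z => ?_⟩
  · have a1 := key fun a _ => if a = u then 1 else 0
    rw [← sum_halves fun x => if x / d = u then 1 else 0, ← List.sum_toFinset _ h.nodup, hc,
      sum_eq_single_of_mem (u : ℕ) (mem_range.2 u.2) fun b _ hb => by simp [hb], sum_boole] at a1
    have a2 : (range (n * d)).filter (fun x => x / d = u) = Ico (u * d) (u * d + d) := by
      ext x
      rw [mem_filter, mem_fib hd, mem_range, ← Nat.div_lt_iff_lt_mul hd]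
      exact ⟨fun a => a.2, fun a => ⟨a ▸ u.2, a⟩⟩
    rw [a2, Nat.card_Ico, Nat.add_sub_cancel_left,
      ← Fin.sum_univ_eq_sum_range (fun v => if adjV d E u v = true then _ else (0 : ℝ))] at a1
    simp only [if_true, sum_boole] at a1
    exact_mod_cast a1
  · have a1 := key fun a b => z a * z b
    rw [← Fin.sum_univ_eq_sum_range (fun u => ∑ v ∈ range n,
      if adjV d E u v = true then z u * z v else 0)] at a1
    refine Eq.trans (sum_congr rfl fun u _ => Fin.sum_univ_eq_sum_range
      (fun v => if adjV d E u v = true then z u * z v else 0) n) (a1.trans ?_)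
    congr 1
    exact List.map_congr_left fun e _ => by ring

theorem gOf_reg {d : ℕ} (hd : 3 ≤ d) :
    ∃ n0, ∀ n, n0 ≤ n → Reg n d (gOf (List.replicate n true)) := by
  have key : ∀ k M : ℕ, k ≠ 0 → 2 * k ≤ M → ∃ n0, ∀ n, n0 ≤ n → ∀ g,
      (List.range n).countP (fun j => !nlt n ((j + 1) ^ k)) = g → M ≤ g ∧ g ^ k ≤ n ∧
        n ≤ 2 * g ^ k := by
    intro k M hk hM
    refine ⟨M ^ k, fun n hn g hg => ?_⟩
    obtain ⟨g', e, a1, a2⟩ := root k n hk
    obtain rfl : g' = g := e.symm.trans hg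
    have a3 : M < g' + 1 := lt_of_pow_lt_pow_left₀ k (Nat.zero_le _) (hn.trans_lt a2)
    exact ⟨by omega, a1, a2.le.trans (succ_pow (by omega))⟩
  obtain ⟨n0, h⟩ := key 12000 (10 ^ 30 + 2 * d) (by norm_num) (by omega)
  refine ⟨n0, fun n hn => ?_⟩
  obtain ⟨a1, a2, a3⟩ := h n hn (gOf (List.replicate n true))
    (by simp only [gOf, idx, List.length_replicate])
  exact ⟨hd, by omega, by omega, a2, a3⟩

end Vale.Agent.P049
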