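import Vale.Agent.P049.Bridge
import Vale.Agent.P049.Round
import Vale.Agent.P049.Pert
import Vale.Agent.P049.DomS
import Vale.Agent.P049.Graph
import Vale.Agent.P049.Init

set_option maxRecDepth 100000

namespace Vale.Agent.P049

open Finset

variable {n d g : ℕ} {F : Finset ℕ} {Y Y' : ℕ → ℕ → ℝ} {E : List (ℕ × ℕ)}

namespace Iter

variable {X X' : ℕ → ℕ → ℝ}

theorem rho_c (hX : ∀ i ∈ F, ∀ j ∈ F, X i j = Y i j) {i : ℕ} (hi : i ∈ F) : rho F X i = rho F Y i :=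
  sum_congr rfl fun j hj => by rw [hX i hi j hj]

theorem zz_c (hX : ∀ i ∈ F, ∀ j ∈ F, X i j = Y i j) : zz F X = zz F Y := by
  unfold zz tau2; rw [sum_congr rfl fun i hi => rho_c hX hi]

theorem qf_c (hX : ∀ i ∈ F, ∀ j ∈ F, X i j = Y i j) (y : ℕ → ℝ) : qf F X y = qf F Y y :=
  sum_congr rfl fun i hi => sum_congr rfl fun j hj => by rw [hX i hi j hj]

theorem phi1_c (hX : ∀ i ∈ F, ∀ j ∈ F, X i j = Y i j) (g t : ℝ) : phi1 g F X t = phi1 g F Y t := by
  have a1 : tau2 F X = tau2 F Y := sum_congr rfl fun i hi => rho_c hX hi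
  have a2 : tau1 F X = tau1 F Y := sum_congr rfl fun i hi => hX i hi i hi
  have a3 : vS F X = vS F Y := sum_congr rfl fun i hi => by rw [rho_c hX hi]
  have a4 : dS F X = dS F Y := sum_congr rfl fun i hi => by rw [hX i hi i hi]
  unfold phi1; rw [a1, a2, a3, a4, zz_c hX]

theorem Phi_c (hX : ∀ i ∈ F, ∀ j ∈ F, X i j = Y i j) (hX' : ∀ i ∈ F, ∀ j ∈ F, X' i j = Y' i j)
    (g b : ℝ) : Phi g F X X' b = Phi g F Y Y' b := by
  have a : nS F X X' = nS F Y Y' := sum_congr rfl fun i hi => sum_congr rfl fun j hj => by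
    rw [sum_congr rfl fun l hl => by rw [hX i hi l hl, hX' l hl j hj]]
  unfold Phi phiT; rw [phi1_c hX, phi1_c hX', zz_c hX, zz_c hX', a]

theorem game_c {c : ℝ} (hX : ∀ i ∈ F, ∀ j ∈ F, X i j = Y i j) (h : Game c F Y) : Game c F X where
  symm i hi j hj := by rw [hX i hi j hj, hX j hj i hi, h.symm i hi j hj]
  row i hi := by rw [sum_congr rfl fun j hj => hX i hi j hj, h.row i hi]
  psd y := by rw [qf_c hX]; exact h.psd y

theorem big (hr : Reg n d g) (hm : g ^ 3995 < F.card) : 10 ^ 30 < F.card :=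
  lt_of_le_of_lt (hr.hg.trans (Nat.le_self_pow (by norm_num) g)) hm

theorem card_le (hr : Reg n d g) (h : Inv n d g F Y Y' E) : F.card ≤ g ^ 12001 := by
  have a := card_le_card h.mt.sub
  rw [card_range] at a
  have b := Nat.mul_le_mul hr.hi (le_refl d)
  have c := Nat.mul_le_mul (le_refl (g ^ 12000)) hr.dg
  rw [show g ^ 12001 = g ^ 12000 * g from pow_succ g 12000]
  generalize g ^ 12000 = P at *
  nlinarith

theorem scal {m P P1 P2 P3 : ℝ} (hm : 10 ≤ m) (p0 : 0 ≤ P) (h1 : P1 ≤ P * Real.exp (1 / (4 * m)))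
    (h2 : P2 ≤ P1 * Real.exp (1 / (4 * (m - 2)))) (h3 : P3 ≤ P2 * Real.exp (1 / (4 * (m - 2)))) :
    (m - 2) * P3 ≤ m * P := by
  have m2 : 0 < m - 2 := by linarith
  have a : Real.exp (1 / (4 * m)) ≤ Real.exp (1 / (4 * (m - 2))) :=
    Real.exp_le_exp.2 (one_div_le_one_div_of_le (by linarith) (by linarith))
  have e0 := Real.exp_pos (1 / (4 * (m - 2)))
  have b : P3 ≤ P * Real.exp (3 / (4 * (m - 2))) := by
    rw [show 3 / (4 * (m - 2)) = 1 / (4 * (m - 2)) + 1 / (4 * (m - 2)) + 1 / (4 * (m - 2)) by ring,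
      Real.exp_add, Real.exp_add, ← mul_assoc, ← mul_assoc]
    exact h3.trans (mul_le_mul_of_nonneg_right (h2.trans (mul_le_mul_of_nonneg_right
      (h1.trans (mul_le_mul_of_nonneg_left a p0)) e0.le)) e0.le)
  have x0 : 0 < 3 / (4 * (m - 2)) := by positivity
  have c := (abs_le.1 (Real.abs_exp_sub_one_le (x := 3 / (4 * (m - 2))) (by
    rw [abs_of_pos x0, div_le_one (by linarith)]; linarith))).2
  rw [abs_of_pos x0] at c
  have d : (m - 2) * (3 / (4 * (m - 2))) = 3 / 4 := by field_simp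
  have f : (m - 2) * Real.exp (3 / (4 * (m - 2))) ≤ m := by
    nlinarith [mul_le_mul_of_nonneg_left c m2.le]
  nlinarith [mul_le_mul_of_nonneg_left b m2.le, mul_le_mul_of_nonneg_left f p0]

end Iter

open Iter

theorem Inv.congr (h : Inv n d g F Y Y' E) {X X' : ℕ → ℕ → ℝ}
    (hX : ∀ i ∈ F, ∀ j ∈ F, X i j = Y i j) (hX' : ∀ i ∈ F, ∀ j ∈ F, X' i j = Y' i j) :
    Inv n d g F X X' E where
  mt := h.mt
  gp := game_c hX h.gp
  gm := game_c hX' h.gm
  zp := by rw [zz_c hX]; exact h.zp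
  zm := by rw [zz_c hX']; exact h.zm
  dp z y := by rw [qf_c hX]; exact h.dp z y
  dm z y := by rw [qf_c hX']; exact h.dm z y
  phi := by rw [Phi_c hX hX']; exact h.phi

theorem Inv.next (hr : Reg n d g) (h : Inv n d g F Y Y' E) (hm : g ^ 3995 < F.card) {α β : ℕ}
    (ht : Test d g F Y Y' E α β) :
    Inv n d g (rem F α β) (nx g F 1 Y α β) (nx g F (-1) Y' α β) ((α, β) :: E) := by
  obtain ⟨hα, hβ, hb, d1, d2, g1, g2, g3⟩ := ht
  have hg : 1 ≤ g := le_trans (by norm_num) hr.hg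
  have hQ : 0 < g ^ 200000 := pow_pos hg _
  have c0 := hr.cc_pos.le
  have c1 : cc ℝ d g ^ 2 < 1 := hr.cc_sq.trans_lt (by norm_num)
  have hF : 2 < F.card := lt_trans (by norm_num) (big hr hm)
  have hne := badB_ne hb
  have s1 := game_step (Or.inl rfl) c0 c1 h.gp hα hβ hne hF d1
  have s2 := game_step (Or.inr rfl) c0 c1 h.gm hα hβ hne hF d2
  have pos : ∀ {a z : ℝ}, 0 ≤ a → 1 ≤ a * z → 0 < z := fun ha hz => by
    by_contra c
    nlinarith [mul_nonneg ha (neg_nonneg.2 (not_lt.1 c))]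
  have hH : ∀ σ z, HH σ n d g (rem F α β) ((α, β) :: E) z = HH σ n d g F E z
      - σ * (2 * z (α / d) * z (β / d) + (∑ i ∈ rem F α β, z (i / d)) ^ 2 / (rem F α β).card
        - (∑ i ∈ F, z (i / d)) ^ 2 / F.card)
      - cc ℝ d g * pd (rem F α β) (fun i => z (i / d)) (fun i => z (i / d))
      + cc ℝ d g * pd F (fun i => z (i / d)) (fun i => z (i / d)) := by
    intro σ z
    simp only [HH, List.map_cons, List.sum_cons]; ring
  refine ⟨h.mt.step hα hβ hb, rnd_game hQ s1, rnd_game hQ s2, pos (Nat.cast_nonneg _) g1,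
    pos (Nat.cast_nonneg _) g2, fun z => ?_, fun z => ?_, le_trans (mul_le_mul_of_nonneg_left
      (Phi_le_phiH (by exact_mod_cast hg) hQ g1 g2 (bG_nonneg (Nat.cast_nonneg _)))
      (Nat.cast_nonneg _)) g3⟩
  · rw [hH]; exact rnd_dom hQ c1 s1 (dom_step (Or.inl rfl) c0 c1 h.gp hα hβ hne hF d1 (h.dp z))
  · rw [hH]; exact rnd_dom hQ c1 s2 (dom_step (Or.inr rfl) c0 c1 h.gm hα hβ hne hF d2 (h.dm z))

theorem Inv.exists_test (hr : Reg n d g) (h : Inv n d g F Y Y' E) (hm : g ^ 3995 < F.card) :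
    ∃ α β, Test d g F Y Y' E α β := by
  have hg : 1 ≤ g := le_trans (by norm_num) hr.hg
  have hg1 : (1 : ℝ) ≤ g := by exact_mod_cast hg
  have hg0 : (0 : ℝ) < g := by linarith
  have hgR : (10 : ℝ) ^ 30 ≤ g := by exact_mod_cast hr.hg
  have hQ : 0 < g ^ 200000 := pow_pos hg _
  have c0 := hr.cc_pos.le
  have c1 : cc ℝ d g ^ 2 < 1 := hr.cc_sq.trans_lt (by norm_num)
  have hF := big hr hm
  have hFR : (10 : ℝ) ^ 30 < F.card := by exact_mod_cast hF
  have hc := card_le hr h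
  have hc2 : F.card ≤ g ^ 12002 := hc.trans (Nat.pow_le_pow_right hg (by norm_num))
  have hn : Num (g : ℝ) F.card := ⟨hgR, by exact_mod_cast hm.le, by exact_mod_cast hc2⟩
  have b0 : 0 ≤ bG (g : ℝ) d E F := bG_nonneg hg0.le
  have p0 := zero_le_one.trans (one_le_Phi hg1 h.zp h.zm b0)
  have hdg : (d : ℝ) ≤ g := by exact_mod_cast (by have := hr.dg; omega : d ≤ g)
  obtain ⟨α, hα, β, hβ, hb, d1, d2, z1, z2, hP⟩ := step_gen hn c0 hr.cc_sq h.gp h.gm h.zp h.zm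
    (h.mt.badOk (by have := hr.hd; omega) hdg) (c1_nonneg d F) (c2_nonneg d E F)
    (le_trans (le_mul_of_one_le_left p0 (by linarith)) h.phi)
    (b' := fun α β => bG (g : ℝ) d ((α, β) :: E) (rem F α β))
    fun α hα β hβ hb => ⟨bG_nonneg hg0.le, h.mt.bG_step hg0.le hα hβ hb⟩
  have hne := badB_ne hb
  have hF2 : 2 < F.card := lt_trans (by norm_num) hF
  have s1 := game_step (Or.inl rfl) c0 c1 h.gp hα hβ hne hF2 d1
  have s2 := game_step (Or.inr rfl) c0 c1 h.gm hα hβ hne hF2 d2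
  have hR := DomS.cardR hα hβ hne
  have hRc : (rem F α β).card ≤ g ^ 12002 :=
    (card_le_card ((erase_subset _ _).trans (erase_subset _ _))).trans hc2
  have hRc' : ((rem F α β).card : ℝ) ≤ (g : ℝ) ^ 12002 := by exact_mod_cast hRc
  have cl : ((rem F α β).card : ℝ) / (g ^ 200000 : ℕ) ≤ 1 / (g : ℝ) ^ 100000 := by
    rw [div_le_div_iff₀ (by exact_mod_cast hQ) (pow_pos hg0 _), one_mul, Nat.cast_pow]
    refine (mul_le_mul_of_nonneg_right hRc' (pow_pos hg0 _).le).trans ?_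
    rw [← pow_add]
    exact pow_le_pow_right₀ hg1 (by norm_num)
  have b1 : 0 ≤ bG (g : ℝ) d ((α, β) :: E) (rem F α β) := bG_nonneg hg0.le
  obtain ⟨y1, y2, hP2⟩ := phi_pert hgR hRc' z1 z2
    (fun i hi j hj => (rnd_close hQ s1 hi hj).trans cl)
    (fun i hi j hj => (rnd_close hQ s2 hi hj).trans cl) b1
  have one : ∀ {z : ℝ}, 1 / 2 ≤ z → 1 ≤ ((rem F α β).card : ℝ) * z := fun hz => by
    rw [hR]; nlinarith
  have hQ2 : 10 ^ 7 * (rem F α β).card ≤ g ^ 200000 := by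
    refine (Nat.mul_le_mul (le_trans (by norm_num) hr.hg) hRc).trans ?_
    rw [← pow_succ']
    exact Nat.pow_le_pow_right hg (by norm_num)
  have hP3 := phiH_le_Phi hg1 hQ2 (one y1) (one y2) b1
  refine ⟨α, β, hα, hβ, hb, d1, d2, one y1, one y2, le_trans ?_ h.phi⟩
  rw [hR] at hP2 hP3 ⊢
  exact scal (by linarith) p0 hP hP2 hP3

end Vale.Agent.P049
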