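import Vale.Agent.P049.AlgS
import Vale.Agent.P049.AlgB
import Vale.Agent.P049.GraphB
import Vale.Agent.P049.DomE
import Vale.Agent.P337.Transfer

namespace Vale.Agent.P049

open Finset Vale.Agent.Common.TreeTM

theorem free_list (b : List Bool) :
    ((idx b).filter fun i => b.getD i false).Nodup ∧
      ((idx b).filter fun i => b.getD i false).toFinset = FF b := by
  refine ⟨List.nodup_range.filter _, ?_⟩
  ext i
  simp [FF, idx]

theorem main (d : ℕ) (hd : 3 ≤ d) :
    ∃ n0 : ℕ, ∀ n : ℕ, n0 ≤ n → Even (d * n) → ∃ G : SimpleGraph (Fin n), ∃ _ : DecidableRel G.Adj,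
      alg d (List.replicate n true) =
        ((List.finRange n).flatMap fun u => (List.finRange n).map fun v => decide (G.Adj u v)) ∧
      G.IsRegularOfDegree d ∧
      ∀ (μ : ℝ) (z : Fin n → ℝ), z ≠ 0 → ∑ v, z v = 0 → (G.adjMatrix ℝ).mulVec z = μ • z →
        |μ| ≤ 2 * √((d : ℝ) - 1) := by
  obtain ⟨n0, hn0⟩ := gOf_reg hd
  refine ⟨n0, fun n hn hev => ?_⟩
  have hr := hn0 n hn
  obtain ⟨hI, hc⟩ := run_inv hr
  have ea : alg d (List.replicate n true) = (idx (List.replicate n true)).flatMap fun u =>
      (idx (List.replicate n true)).map fun v =>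
        adjV d (edges (run d (List.replicate n true))) u v := rfl
  rw [ea]
  generalize run d (List.replicate n true) = s at *
  generalize gOf (List.replicate n true) = g at *
  obtain ⟨hb, hfin⟩ := hI.final hr hc
  obtain ⟨l1, l2⟩ := free_list s.1
  set l := (idx s.1).filter fun i => s.1.getD i false with hl
  have hlen : l.length = (FF s.1).card := by rw [← l2, List.toFinset_card_of_nodup l1]
  have hev' : Even l.length := by
    have := hI.mt.card
    rw [hlen]
    rw [mul_comm] at hev
    rw [← this, Nat.even_add] at hev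
    exact hev.2 (even_two_mul _)
  have hh := halves_prs hev'
  have k1 : (halves (prs l)).Nodup := by rw [hh]; exact l1
  have k2 : (halves (prs l)).toFinset = FF s.1 := by rw [hh]; exact l2
  have hg1 : (1 : ℝ) ≤ g := by
    have := hr.hg
    exact_mod_cast (show 1 ≤ g from le_trans (by norm_num) this)
  have hM := hI.mt.finish hg1 hb (L := prs l) k1 k2
  obtain ⟨G, hG, hdeg, hq⟩ := hM.graph (by omega)
  classical
  refine ⟨G, inferInstance, ?_, ?_, ?_⟩
  · have e1 : idx (List.replicate n true) = (List.finRange n).map Fin.val := by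
      simp [idx, List.map_coe_finRange_eq_range]
    rw [e1, List.flatMap_map]
    refine List.flatMap_congr fun u _ => ?_
    rw [List.map_map]
    refine List.map_congr_left fun v _ => ?_
    have := hG u v
    simp only [Function.comp_apply, this, Bool.decide_eq_true]
    rfl
  · intro u
    rw [← hdeg u, ← SimpleGraph.card_neighborFinset_eq_degree]
    congr 1
    ext v
    simp [hG]
  · intro μ z hz h0 he
    let z' : ℕ → ℝ := fun v => if h : v < n then z ⟨v, h⟩ else 0
    have hz' : ∀ v : Fin n, z' v = z v := fun v => by simp [z']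
    have s1 : ∑ v ∈ range n, z' v = 0 := by
      rw [← Fin.sum_univ_eq_sum_range]; simp only [hz', h0]
    have s2 : ∑ v ∈ range n, z' v ^ 2 = ∑ v, z v ^ 2 := by
      rw [← Fin.sum_univ_eq_sum_range (fun v => z' v ^ 2)]; simp only [hz']
    have h1 := hfin (prs l) k1 k2 z' s1
    rw [← hq z', s2] at h1
    have h2 : ∑ u : Fin n, ∑ v : Fin n, (if adjV d (prs l ++ s.2.2.2) u v = true then z' u * z' v
        else 0) = μ * ∑ v, z v ^ 2 := by
      rw [mul_sum]
      refine sum_congr rfl fun u _ => ?_
      have := congrFun he u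
      simp only [Matrix.mulVec, dotProduct, SimpleGraph.adjMatrix_apply, Pi.smul_apply,
        smul_eq_mul] at this
      calc _ = z u * ∑ v, (if G.Adj u v then 1 else 0) * z v := by
            rw [mul_sum]
            refine sum_congr rfl fun v _ => ?_
            simp only [hz', ← hG]
            split_ifs <;> simp
        _ = _ := by rw [this]; ring
    have hpos : 0 < ∑ v, z v ^ 2 := by
      obtain ⟨v, hv⟩ := Function.ne_iff.1 hz
      exact sum_pos' (fun _ _ => sq_nonneg _) ⟨v, mem_univ _, sq_pos_of_ne_zero hv⟩
    rw [h2, abs_mul, abs_of_pos hpos] at h1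
    exact le_of_mul_le_mul_right h1 hpos

end Vale.Agent.P049
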