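import Vale.Agent.P049.G

namespace Vale.Agent.P049

open Finset

open Vale.Agent.Common.TreeTM Vale.Agent.P337

instance : Enc ℚ := ⟨fun r => Enc.enc (r.num, r.den)⟩

variable {α β : Type} [Enc α] [Enc β]

theorem sz_rat (r : ℚ) : sz r = sz r.num + sz r.den + 1 := sz_pair r.num r.den
theorem sz_rat_le {r : ℚ} {k : ℕ} (h1 : r.num.natAbs < 2 ^ k) (h2 : r.den < 2 ^ k) :
    sz r ≤ 12 * k + 5 := by
  have h0 : ((2 ^ k : ℕ) : ℤ) = 2 ^ k := by push_cast; rfl
  have a1 := sz_int_le (z := r.num) (k := k) (by omega) (by omega)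
  have a2 := sz_nat_le h2
  rw [sz_rat]; omega
@[fun_prop] theorem tc_filter {f : α → β → Bool} {l : α → List β}
    (hf : TC 0 fun p : α × β => f p.1 p.2) (hl : TC 0 l) : TC 0 fun a => (l a).filter (f a) := by
  have : TC 0 fun a => (l a).flatMap fun x => bif f a x then [x] else [] := by fun_prop
  refine this.of_eq fun a => ?_
  induction l a with
  | nil => rfl
  | cons x t ih => rw [List.filter_cons, List.flatMap_cons, ih]; cases f a x <;> rfl
@[fun_prop] theorem tc_countP {f : α → β → Bool} {l : α → List β}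
    (hf : TC 0 fun p : α × β => f p.1 p.2) (hl : TC 0 l) : TC 0 fun a => (l a).countP (f a) :=
  (TC.length (tc_filter hf hl)).of_eq fun _ => List.countP_eq_length_filter
@[fun_prop] theorem tc_any {f : α → β → Bool} {l : α → List β}
    (hf : TC 0 fun p : α × β => f p.1 p.2) (hl : TC 0 l) : TC 0 fun a => (l a).any (f a) := by
  have : TC 0 fun a => !(l a).all fun x => !f a x := by fun_prop
  exact this.of_eq fun a => by simp [List.all_eq_not_any_not]
@[fun_prop] theorem tc_pow {f : α → ℕ} (k : ℕ) (hf : TC 0 f) : TC 0 fun a => f a ^ k :=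
  (tc_powLen hf (TC.const (List.replicate k true))).of_eq fun _ => by simp

theorem fold_inv {σ γ : Type} (P : ℕ → σ → Prop) (f : σ → γ → σ) (l : List γ) (i : σ) (h0 : P 0 i)
    (hs : ∀ k acc x, k < l.length → P k acc → P (k + 1) (f acc x)) : P l.length (l.foldl f i) := by
  have : ∀ k ≤ l.length, P k ((l.take k).foldl f i) := by
    intro k
    induction k with
    | zero => intro _; exact h0
    | succ k ih =>
      intro hk
      rw [List.take_succ_eq_append_getElem (show k < l.length by omega), List.foldl_append]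
      exact hs _ _ _ (by omega) (ih (by omega))
  simpa using this _ le_rfl

def gcdStep (s : ℕ × ℕ) : ℕ × ℕ := bif isPos s.2 then (s.2, s.1 % s.2) else s

theorem gcdStep_inv {x0 y0 k : ℕ} {s : ℕ × ℕ}
    (h : s.2 ≤ s.1 ∧ Nat.gcd s.1 s.2 = Nat.gcd x0 y0 ∧ s.1 * s.2 * 2 ^ k ≤ x0 * y0 ∧ s.1 ≤ x0) :
    (gcdStep s).2 ≤ (gcdStep s).1 ∧ Nat.gcd (gcdStep s).1 (gcdStep s).2 = Nat.gcd x0 y0 ∧
      (gcdStep s).1 * (gcdStep s).2 * 2 ^ (k + 1) ≤ x0 * y0 ∧ (gcdStep s).1 ≤ x0 := by
  obtain ⟨x, y⟩ := s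
  obtain ⟨h1, h2, h3, h4⟩ := h
  dsimp only at *
  rcases Nat.eq_zero_or_pos y with rfl | hy
  · simpa [gcdStep, isPos, h4] using h2
  · have a1 := Nat.mod_lt x hy
    have a2 : x % y ≤ x - y := by
      rw [Nat.mod_eq_sub_mod h1]; exact Nat.mod_le _ _
    simp only [gcdStep, isPos, hy, decide_true, Bool.cond_true]
    refine ⟨a1.le, by rw [← h2, Nat.gcd_comm x, Nat.gcd_rec y x, Nat.gcd_comm], ?_, by omega⟩
    refine le_trans ?_ h3
    calc y * (x % y) * 2 ^ (k + 1) = 2 * (x % y) * y * 2 ^ k := by ring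
      _ ≤ _ := by gcongr; omega

@[fun_prop] theorem tc_gcd {f g : α → ℕ} (hf : TC 0 f) (hg : TC 0 g) :
    TC 0 fun a => Nat.gcd (f a) (g a) := by
  have hx : TC 0 fun a => f a + g a := by fun_prop
  have h := TC.foldl_inv (e := 0) (f := fun _ s (_ : Bool) => gcdStep s) (i := fun a => (f a + g a, g a))
    (l := fun a => ((f a + g a) * g a).bits) (by unfold gcdStep; fun_prop) (by fun_prop)
    (by fun_prop) (S := fun a => 8 * sz (f a + g a) + 3)
    (((Bd.const _ _).mul hx.bd).add (Bd.const _ _))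
    (fun a k s => s.2 ≤ s.1 ∧ Nat.gcd s.1 s.2 = Nat.gcd (f a + g a) (g a) ∧
      s.1 * s.2 * 2 ^ k ≤ (f a + g a) * g a ∧ s.1 ≤ f a + g a) (fun _ => by simp)
    (fun a k s _ _ h => gcdStep_inv h) (fun a k s _ h => by
      have := sz_nat_mono h.2.2.2
      have := sz_nat_mono (h.1.trans h.2.2.2)
      rw [sz_prod]; omega)
  refine (TC.fst h).of_eq fun a => ?_
  obtain ⟨h1, h2, h3, -⟩ := fold_inv (fun k (s : ℕ × ℕ) => s.2 ≤ s.1 ∧
      Nat.gcd s.1 s.2 = Nat.gcd (f a + g a) (g a) ∧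
      s.1 * s.2 * 2 ^ k ≤ (f a + g a) * g a ∧ s.1 ≤ f a + g a) (fun s (_ : Bool) => gcdStep s)
    ((f a + g a) * g a).bits (f a + g a, g a) (by simp) fun k s _ _ h => gcdStep_inv h
  generalize List.foldl _ _ _ = s at *
  rw [Nat.size_eq_bits_len] at h3
  have h4 := Nat.lt_size_self ((f a + g a) * g a)
  have h5 : s.1 * s.2 = 0 := by
    by_contra h0
    have := Nat.le_mul_of_pos_left (2 ^ ((f a + g a) * g a).size) (Nat.pos_of_ne_zero h0)
    omega
  have h6 : s.2 = 0 := by rcases Nat.mul_eq_zero.1 h5 with k | k <;> omega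
  rw [h6, Nat.gcd_zero_right] at h2
  rw [h2, Nat.gcd_add_self_left]

def sqStep (n : ℕ) (s : ℕ × ℕ) : ℕ × ℕ :=
  (bif nlt n ((s.1 + s.2 / 2) * (s.1 + s.2 / 2)) then s.1 else s.1 + s.2 / 2, s.2 / 2)

@[fun_prop] theorem tc_sqrt {f : α → ℕ} (hf : TC 0 f) : TC 0 fun a => Nat.sqrt (f a) := by
  have hx : TC 0 fun a => 2 ^ (f a).bits.length := by fun_prop
  have h := TC.foldl_inv (f := fun a s (_ : Bool) => sqStep (f a) s)
    (i := fun a => (0, 2 ^ (f a).bits.length))
    (l := fun a => (f a).bits) (by unfold sqStep; fun_prop) (by fun_prop)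
    (by fun_prop) (S := fun a => 8 * sz (2 ^ (f a).bits.length) + 3)
    (((Bd.const _ _).mul hx.bd).add (Bd.const _ _))
    (fun a _ s => s.1 + s.2 ≤ 2 ^ (f a).bits.length) (fun _ => by simp)
    (fun a k s _ _ h => by
      unfold sqStep
      cases nlt (f a) _ <;> simp only [Bool.cond_true, Bool.cond_false] <;> omega)
    (fun a k s _ h => by
      have := sz_nat_mono (show s.1 ≤ 2 ^ (f a).bits.length by omega)
      have := sz_nat_mono (show s.2 ≤ 2 ^ (f a).bits.length by omega)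
      rw [sz_prod]; omega)
  refine (TC.fst h).of_eq fun a => ?_
  obtain ⟨h1, h2, h3⟩ := fold_inv (fun k (s : ℕ × ℕ) => s.1 * s.1 ≤ f a ∧
      f a < (s.1 + s.2) * (s.1 + s.2) ∧ s.2 = 2 ^ ((f a).bits.length - k))
    (fun s (_ : Bool) => sqStep (f a) s) (f a).bits (0, 2 ^ (f a).bits.length)
    ⟨by simp, by
      have := Nat.lt_size_self (f a)
      rw [← Nat.size_eq_bits_len] at this
      simpa using this.trans_le (Nat.le_mul_self _), rfl⟩ fun k s _ hk ⟨h1, h2, h3⟩ => by
      have e : (f a).bits.length - k = (f a).bits.length - (k + 1) + 1 := by omega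
      rw [e, pow_succ] at h3
      have e2 : s.2 / 2 = 2 ^ ((f a).bits.length - (k + 1)) := by omega
      unfold sqStep nlt
      by_cases c : f a < (s.1 + s.2 / 2) * (s.1 + s.2 / 2)
      · simp only [c, decide_true, Bool.cond_true]; exact ⟨h1, trivial, e2⟩
      · simp only [c, decide_false, Bool.cond_false]
        refine ⟨not_lt.1 c, ?_, e2⟩
        rwa [show s.1 + s.2 / 2 + s.2 / 2 = s.1 + s.2 by omega]
  generalize List.foldl _ _ _ = s at *
  rw [Nat.sub_self, pow_zero] at h3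
  rw [h3] at h2
  exact (Nat.eq_sqrt.2 ⟨h1, h2⟩).symm

theorem tc_nd {f : α → ℚ} (hf : TC 0 f) : TC 0 fun a => ((f a).num, (f a).den) :=
  hf.of_enc fun _ => rfl
@[fun_prop] theorem tc_num {f : α → ℚ} (hf : TC 0 f) : TC 0 fun a => (f a).num := TC.fst (tc_nd hf)
@[fun_prop] theorem tc_den {f : α → ℚ} (hf : TC 0 f) : TC 0 fun a => (f a).den := TC.snd (tc_nd hf)

@[fun_prop] theorem tc_ediv {f : α → ℤ} {g : α → ℕ} (hf : TC 0 f) (hg : TC 0 g) :
    TC 0 fun a => f a / (g a : ℤ) := by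
  have : TC 0 fun a => (((f a).toNat / g a : ℕ) : ℤ) - (((-f a).toNat + g a - 1) / g a : ℕ) := by
    fun_prop
  refine this.of_eq fun a => ?_
  rcases Nat.eq_zero_or_pos (g a) with h0 | h0
  · simp [h0]
  · cases f a with
    | ofNat n =>
      have : (g a - 1) / g a = 0 := Nat.div_eq_of_lt (by omega)
      simp [this]
    | negSucc n =>
      rw [Int.negSucc_ediv _ (by exact_mod_cast h0)]
      have e : (-Int.negSucc n).toNat + g a - 1 = n + g a := by
        rw [Int.neg_negSucc, Int.toNat_natCast]; omega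
      rw [e, Nat.add_div_right _ h0]
      simp [Int.ediv]

@[fun_prop] theorem tc_mkRat {f : α → ℤ} {g : α → ℕ} (hf : TC 0 f) (hg : TC 0 g) :
    TC 0 fun a => mkRat (f a) (g a) := by
  have : TC 0 fun a => bif isPos (g a) then
      (f a / ((g a).gcd (f a).natAbs : ℕ), g a / (g a).gcd (f a).natAbs) else ((0 : ℤ), 1) := by
    fun_prop
  refine this.of_enc fun a => ?_
  change Enc.enc ((mkRat (f a) (g a)).num, (mkRat (f a) (g a)).den) = _
  rw [Rat.num_mkRat, Rat.den_mkRat]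
  rcases Nat.eq_zero_or_pos (g a) with h0 | h0
  · simp [h0, isPos]
  · simp [h0.ne', h0, isPos]
@[fun_prop] theorem tc_intCastQ {f : α → ℤ} (hf : TC 0 f) : TC 0 fun a => (f a : ℚ) :=
  (TC.pair hf (TC.const (1 : ℕ))).of_enc fun _ => rfl
@[fun_prop] theorem tc_natCastQ {f : α → ℕ} (hf : TC 0 f) : TC 0 fun a => (f a : ℚ) :=
  (tc_intCastQ (TC.natCast hf)).of_eq fun _ => rfl
@[fun_prop] theorem tc_qadd {f g : α → ℚ} (hf : TC 0 f) (hg : TC 0 g) : TC 0 fun a => f a + g a := by
  have : TC 0 fun a => mkRat ((f a).num * (g a).den + (g a).num * (f a).den) ((f a).den * (g a).den) := by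
    fun_prop
  exact this.of_eq fun a => Rat.add_def' _ _
@[fun_prop] theorem tc_qneg {f : α → ℚ} (hf : TC 0 f) : TC 0 fun a => -f a := by
  have : TC 0 fun a => (-(f a).num, (f a).den) := by fun_prop
  exact this.of_enc fun _ => rfl
@[fun_prop] theorem tc_qsub {f g : α → ℚ} (hf : TC 0 f) (hg : TC 0 g) : TC 0 fun a => f a - g a :=
  (tc_qadd hf (tc_qneg hg)).of_eq fun _ => sub_eq_add_neg _ _
@[fun_prop] theorem tc_qmul {f g : α → ℚ} (hf : TC 0 f) (hg : TC 0 g) : TC 0 fun a => f a * g a := by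
  have : TC 0 fun a => mkRat ((f a).num * (g a).num) ((f a).den * (g a).den) := by fun_prop
  exact this.of_eq fun a => Rat.mul_def' _ _
@[fun_prop] theorem tc_qinv {f : α → ℚ} (hf : TC 0 f) : TC 0 fun a => (f a)⁻¹ := by
  have : TC 0 fun a => mkRat ((f a).den * (f a).num) ((f a).num.natAbs * (f a).num.natAbs) := by
    fun_prop
  refine this.of_eq fun a => ?_
  rw [Rat.mkRat_eq_div]
  nth_rewrite 1 [← Rat.num_div_den (f a)]
  have e : (((f a).num.natAbs * (f a).num.natAbs : ℕ) : ℚ) = (f a).num * (f a).num := by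
    rw [← Int.cast_natCast, Int.natAbs_mul_self]; push_cast; rfl
  rw [e, inv_div]
  by_cases h : ((f a).num : ℚ) = 0
  · simp [h]
  · push_cast; field_simp
@[fun_prop] theorem tc_qdiv {f g : α → ℚ} (hf : TC 0 f) (hg : TC 0 g) : TC 0 fun a => f a / g a :=
  (tc_qmul hf (tc_qinv hg)).of_eq fun _ => div_eq_mul_inv _ _
@[fun_prop] theorem tc_qpow {f : α → ℚ} (k : ℕ) (hf : TC 0 f) : TC 0 fun a => f a ^ k := by
  have : TC 0 fun a => mkRat ((((f a).num.toNat ^ k : ℕ) : ℤ) +
      (-1) ^ k * (((-(f a).num).toNat ^ k : ℕ) : ℤ) - (0 ^ k : ℕ)) ((f a).den ^ k) := by fun_prop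
  refine this.of_eq fun a => ?_
  rw [Rat.mkRat_eq_div]
  nth_rewrite 1 [← Rat.num_div_den (f a)]
  rw [div_pow]
  congr 1
  · rcases Nat.eq_zero_or_pos k with rfl | hk
    · simp
    · rw [zero_pow hk.ne']
      rcases le_total 0 (f a).num with h | h
      · rw [Int.toNat_eq_zero.2 (show -(f a).num ≤ 0 by omega), zero_pow hk.ne']
        push_cast
        rw [← Int.cast_natCast, Int.toNat_of_nonneg h]; simp
      · rw [Int.toNat_eq_zero.2 h, zero_pow hk.ne']
        push_cast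
        rw [← Int.cast_natCast, Int.toNat_of_nonneg (by omega), ← mul_pow]; simp
  · simp
@[fun_prop] theorem tc_qfloor {f : α → ℚ} (hf : TC 0 f) : TC 0 fun a => ⌊f a⌋ := by
  have : TC 0 fun a => (f a).num / ((f a).den : ℤ) := by fun_prop
  exact this.of_eq fun a => Rat.floor_def'
@[fun_prop] theorem tc_qlt {f g : α → ℚ} (hf : TC 0 f) (hg : TC 0 g) :
    TC 0 fun a => decide (f a < g a) := by
  have : TC 0 fun a => ilt 0 (g a - f a).num := by fun_prop
  exact this.of_eq fun a => by simp [ilt]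
@[fun_prop] theorem tc_qle {f g : α → ℚ} (hf : TC 0 f) (hg : TC 0 g) :
    TC 0 fun a => decide (f a ≤ g a) :=
  (TC.not (tc_qlt hg hf)).of_eq fun a => by simp [← not_lt]
@[fun_prop] theorem tc_qmax {f g : α → ℚ} (hf : TC 0 f) (hg : TC 0 g) :
    TC 0 fun a => max (f a) (g a) :=
  (TC.cond (tc_qle hf hg) hg hf).of_eq fun a => by rw [max_def, Bool.cond_decide]

theorem num_natAbs_le {r : ℚ} {B : ℕ} (h : |r| ≤ B) : r.num.natAbs ≤ B * r.den := by
  have h1 : (r.num : ℚ) = r * r.den := (Rat.mul_den_eq_num r).symm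
  have h2 : ((r.num.natAbs : ℕ) : ℚ) ≤ (B * r.den : ℕ) := by
    rw [Nat.cast_natAbs, Int.cast_abs, h1, abs_mul, Nat.abs_cast]
    push_cast; gcongr
  exact_mod_cast h2

theorem abs_le_two_pow_sz (r : ℚ) : |r| ≤ (2 ^ sz r : ℕ) ∧ r.den ≤ 2 ^ sz r := by
  have e := sz_rat r
  have h1 := int_lt_two_pow_sz r.num
  have h2 := lt_two_pow_sz r.den
  refine ⟨?_, h2.le.trans (Nat.pow_le_pow_right (by norm_num) (by omega))⟩
  have h3 : |r.num| ≤ 2 ^ sz r :=
    (abs_lt.2 h1).le.trans (pow_le_pow_right₀ (by norm_num) (by omega))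
  have h4 : |r| ≤ |(r.num : ℚ)| := by
    rw [← Rat.mul_den_eq_num r, abs_mul, Nat.abs_cast]
    exact le_mul_of_one_le_right (abs_nonneg _) (by exact_mod_cast r.den_pos)
  refine h4.trans ?_
  exact_mod_cast h3

@[fun_prop] theorem tc_qsum {l : α → List ℚ} (hl : TC 0 l) : TC 0 fun a => (l a).sum := by
  refine (TC.foldl_inv (f := fun _ acc (x : ℚ) => acc + x) (i := fun _ => 0)
    (by fun_prop) (by fun_prop) hl
    (S := fun a => 12 * (sz (l a) + sz (l a) + sz (l a) * sz (l a) + 1) + 5)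
    (((Bd.const _ _).mul (((hl.bd.add hl.bd).add (hl.bd.mul hl.bd)).add (Bd.const _ _))).add
      (Bd.const _ _))
    (fun a k s => |s| ≤ (k * 2 ^ sz (l a) : ℕ) ∧ s.den ≤ 2 ^ (k * sz (l a))) (fun _ => by simp)
    ?_ ?_).of_eq fun a => ?_
  · intro a k s x hx ⟨h1, h2⟩
    obtain ⟨h3, h4⟩ := abs_le_two_pow_sz x
    have h5 : 2 ^ sz x ≤ 2 ^ sz (l a) := Nat.pow_le_pow_right (by norm_num) (sz_mem hx)
    constructor
    · refine (abs_add_le _ _).trans ?_
      rw [Nat.succ_mul, Nat.cast_add]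
      exact add_le_add h1 (h3.trans (by exact_mod_cast h5))
    · rw [Nat.succ_mul, pow_add]
      exact (Nat.le_of_dvd (Nat.mul_pos s.den_pos x.den_pos) (Rat.add_den_dvd _ _)).trans
        (Nat.mul_le_mul h2 (h4.trans h5))
  · intro a k s hk ⟨h1, h2⟩
    have hk' := hk.trans (length_le_sz _)
    have h3 : s.den ≤ 2 ^ (sz (l a) * sz (l a)) :=
      h2.trans (Nat.pow_le_pow_right (by norm_num) (Nat.mul_le_mul_right _ hk'))
    refine sz_rat_le ((num_natAbs_le h1).trans_lt ?_)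
      (h3.trans_lt (Nat.pow_lt_pow_right (by norm_num) (by omega)))
    calc k * 2 ^ sz (l a) * s.den ≤ 2 ^ sz (l a) * 2 ^ sz (l a) * 2 ^ (sz (l a) * sz (l a)) := by
          gcongr; exact hk'.trans Nat.lt_two_pow_self.le
      _ < _ := by rw [← pow_add, ← pow_add]; exact Nat.pow_lt_pow_right (by norm_num) (by omega)
  · rw [List.sum_eq_foldl]

theorem FF_eq (b : List Bool) : FF b = ((idx b).filter fun i => b.getD i false).toFinset := by
  ext i; simp [FF, idx]
theorem nodup_free (b : List Bool) : ((idx b).filter fun i => b.getD i false).Nodup :=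
  List.nodup_range.filter _

@[fun_prop] theorem tc_sumFF {b : α → List Bool} {f : α → ℕ → ℚ} (hb : TC 0 b)
    (hf : TC 0 fun p : α × ℕ => f p.1 p.2) : TC 0 fun a => ∑ i ∈ FF (b a), f a i := by
  have : TC 0 fun a => (((idx (b a)).filter fun i => (b a).getD i false).map (f a)).sum := by
    fun_prop
  exact this.of_eq fun a => by rw [FF_eq, List.sum_toFinset _ (nodup_free _)]
@[fun_prop] theorem tc_cardFF {b : α → List Bool} (hb : TC 0 b) :
    TC 0 fun a => (FF (b a)).card := by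
  have : TC 0 fun a => ((idx (b a)).filter fun i => (b a).getD i false).length := by fun_prop
  exact this.of_eq fun a => by rw [FF_eq, List.toFinset_card_of_nodup (nodup_free _)]
@[fun_prop] theorem tc_memFF {b : α → List Bool} {i : α → ℕ} (hb : TC 0 b) (hi : TC 0 i) :
    TC 0 fun a => decide (i a ∈ FF (b a)) := by
  have : TC 0 fun a => nlt (i a) (b a).length && (b a).getD (i a) false := by fun_prop
  exact this.of_eq fun a => by simp [FF, nlt]

end Vale.Agent.P049
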